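import Crest.Agent.X212.Win22.Hom
import Mathlib
import Crest.Agent.X212.Bor5.Defs

-- ▼ part X212/Win22/Gr
section

/-!
Complexes with a finite basis of labelled generators: pieces, projections, the grading of the
homology, and invertibility of "degree-zero injective + degree-lowering".
-/

set_option linter.unusedSectionVars false

namespace Crest.Agent.X212.Win22

open Cx

section Pieces

variable {R : Type*} [Ring R] {ι κ : Type*}

/-- Vectors supported in a set of generators. -/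
def pc (R : Type*) [Ring R] (S : Set ι) : Submodule R (ι → R) where
  carrier := {x | ∀ i, i ∉ S → x i = 0}
  add_mem' := fun {x y} hx hy i hi => by simp [hx i hi, hy i hi]
  zero_mem' := fun _ _ => rfl
  smul_mem' := fun r x hx i hi => by simp [hx i hi]

theorem mem_pc {S : Set ι} {x : ι → R} : x ∈ pc R S ↔ ∀ i, i ∉ S → x i = 0 := Iff.rfl

theorem pc_mono {S T : Set ι} (h : S ⊆ T) : pc R S ≤ pc R T :=
  fun _ hx i hi => hx i fun hs => hi (h hs)

theorem pc_univ : pc R (Set.univ : Set ι) = ⊤ :=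
  eq_top_iff.2 fun _ _ _ hi => (hi trivial).elim

theorem pc_empty : pc R (∅ : Set ι) = ⊥ :=
  eq_bot_iff.2 fun _ hx => funext fun i => hx i id

open Classical in
/-- Projection to a set of generators. -/
noncomputable def pr (R : Type*) [Ring R] (S : Set ι) : (ι → R) →ₗ[R] (ι → R) where
  toFun x i := if i ∈ S then x i else 0
  map_add' x y := funext fun i => by by_cases h : i ∈ S <;> simp [h]
  map_smul' r x := funext fun i => by by_cases h : i ∈ S <;> simp [h]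

theorem pr_of_mem {S : Set ι} (x : ι → R) {i : ι} (h : i ∈ S) : pr R S x i = x i := by
  simp [pr, h]

theorem pr_of_not {S : Set ι} (x : ι → R) {i : ι} (h : i ∉ S) : pr R S x i = 0 := by
  simp [pr, h]

theorem pr_mem (S : Set ι) (x : ι → R) : pr R S x ∈ pc R S := fun _ hi => pr_of_not x hi

theorem pr_add_compl (S : Set ι) (x : ι → R) : pr R S x + pr R Sᶜ x = x := by
  refine funext fun i => ?_
  by_cases h : i ∈ S
  · rw [Pi.add_apply, pr_of_mem x h, pr_of_not x (S := Sᶜ) (fun h' => h' h), add_zero]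
  · rw [Pi.add_apply, pr_of_not x h, pr_of_mem x (S := Sᶜ) h, zero_add]

theorem pr_eq_self {S : Set ι} {x : ι → R} (hx : x ∈ pc R S) : pr R S x = x := by
  refine funext fun i => ?_
  by_cases h : i ∈ S
  · exact pr_of_mem x h
  · rw [pr_of_not x h, hx i h]

theorem pr_eq_zero {S T : Set ι} (hd : Disjoint S T) {x : ι → R} (hx : x ∈ pc R T) :
    pr R S x = 0 := by
  refine funext fun i => ?_
  by_cases h : i ∈ S
  · rw [pr_of_mem x h]
    exact hx i (Set.disjoint_left.1 hd h)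
  · exact pr_of_not x h

theorem pr_mem_inter (S : Set ι) {T : Set ι} {x : ι → R} (hx : x ∈ pc R T) :
    pr R S x ∈ pc R (S ∩ T) := fun i hi => by
  by_cases h : i ∈ S
  · rw [pr_of_mem x h]
    exact hx i fun ht => hi ⟨h, ht⟩
  · exact pr_of_not x h

variable [Fintype ι] [DecidableEq ι]

/-- The matrix entries of `φ` vanish outside the relation `r`. -/
def Sp (φ : (ι → R) →ₗ[R] (κ → R)) (r : ι → κ → Prop) : Prop :=
  ∀ i k, φ (Pi.single i 1) k ≠ 0 → r i k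

theorem apply_eq_sum (φ : (ι → R) →ₗ[R] (κ → R)) (x : ι → R) (k : κ) :
    φ x k = ∑ i, x i * φ (Pi.single i 1) k := by
  conv_lhs => rw [pi_eq_sum_univ' x]
  simp [map_sum, Finset.sum_apply]

theorem Sp.mem {φ : (ι → R) →ₗ[R] (κ → R)} {r : ι → κ → Prop} (h : Sp φ r) {S : Set ι}
    {T : Set κ} (hST : ∀ i ∈ S, ∀ k, r i k → k ∈ T) {x : ι → R} (hx : x ∈ pc R S) :
    φ x ∈ pc R T := fun k hk => by
  rw [apply_eq_sum]
  refine Finset.sum_eq_zero fun i _ => ?_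
  by_cases hi : i ∈ S
  · by_cases h0 : φ (Pi.single i 1) k = 0
    · rw [h0, mul_zero]
    · exact (hk (hST i hi k (h i k h0))).elim
  · rw [hx i hi, zero_mul]

theorem Sp.mono {φ : (ι → R) →ₗ[R] (κ → R)} {r r' : ι → κ → Prop} (h : Sp φ r)
    (hr : ∀ i k, r i k → r' i k) : Sp φ r' := fun i k h0 => hr i k (h i k h0)

theorem Sp.add {φ ψ : (ι → R) →ₗ[R] (κ → R)} {r : ι → κ → Prop} (h : Sp φ r) (h' : Sp ψ r) :
    Sp (φ + ψ) r := fun i k h0 => by
  by_contra hr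
  apply h0
  have a : φ (Pi.single i 1) k = 0 := by_contra fun a => hr (h i k a)
  have b : ψ (Pi.single i 1) k = 0 := by_contra fun a => hr (h' i k a)
  simp [a, b]

theorem Sp.sum {α : Type*} (s : Finset α) {φ : α → (ι → R) →ₗ[R] (κ → R)}
    {r : ι → κ → Prop} (h : ∀ a ∈ s, Sp (φ a) r) : Sp (∑ a ∈ s, φ a) r := fun i k h0 => by
  by_contra hr
  apply h0
  rw [LinearMap.sum_apply, Finset.sum_apply]
  exact Finset.sum_eq_zero fun a ha => by_contra fun b => hr (h a ha i k b)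

/-- A map whose entries respect a pair of sets commutes with the projections. -/
theorem Sp.pr_comm {φ : (ι → R) →ₗ[R] (κ → R)} {r : ι → κ → Prop} (h : Sp φ r) {S : Set ι}
    {T : Set κ} (hST : ∀ i k, r i k → (i ∈ S ↔ k ∈ T)) (x : ι → R) :
    φ (pr R S x) = pr R T (φ x) := by
  have a : φ (pr R S x) ∈ pc R T := h.mem (fun i hi k hr => (hST i k hr).1 hi) (pr_mem S x)
  have b : φ (pr R Sᶜ x) ∈ pc R Tᶜ :=
    h.mem (S := Sᶜ) (T := Tᶜ) (fun i hi k hr hk => hi ((hST i k hr).2 hk)) (pr_mem Sᶜ x)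
  conv_rhs => rw [← pr_add_compl S x, map_add, map_add, pr_eq_self a,
    pr_eq_zero disjoint_compl_right b, add_zero]

end Pieces

/-- A complex with a finite basis of generators labelled in `Λ`; the differential moves the
label by the injective map `σ`. -/
structure GCx (R : Type*) [Ring R] (ι : Type*) [Fintype ι] [DecidableEq ι] (Λ : Type*)
    (σ : Λ → Λ) extends Cx R (ι → R) where
  lab : ι → Λ
  inj : Function.Injective σ
  hom : Sp d fun i k => lab k = σ (lab i)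

namespace GCx

variable {R : Type*} [Ring R] {ι κ : Type*} [Fintype ι] [DecidableEq ι] [Fintype κ]
  [DecidableEq κ] {Λ Λ' : Type*} {σ : Λ → Λ} {σ' : Λ' → Λ'}

/-- Chains with labels in `S`. -/
def ch (A : GCx R ι Λ σ) (S : Set Λ) : Submodule R (ι → R) := pc R (A.lab ⁻¹' S)

/-- Classes with labels in `S`. -/
def Hs (A : GCx R ι Λ σ) (S : Set Λ) : Submodule R A.H := A.img (A.ch S)

theorem Hs_mono (A : GCx R ι Λ σ) {S T : Set Λ} (h : S ⊆ T) : A.Hs S ≤ A.Hs T :=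
  A.img_mono (pc_mono (Set.preimage_mono h))

theorem Hs_univ (A : GCx R ι Λ σ) : A.Hs Set.univ = ⊤ := by
  rw [Hs, ch, Set.preimage_univ, pc_univ, img_top]

theorem Hs_eq_bot (A : GCx R ι Λ σ) {S : Set Λ} (h : ∀ i, A.lab i ∉ S) : A.Hs S = ⊥ := by
  rw [Hs, ch, Set.eq_empty_of_forall_notMem (s := A.lab ⁻¹' S) h, pc_empty, img_bot]

theorem d_pr (A : GCx R ι Λ σ) (T : Set Λ) (x : ι → R) :
    A.d (pr R (A.lab ⁻¹' (σ ⁻¹' T)) x) = pr R (A.lab ⁻¹' T) (A.d x) :=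
  A.hom.pr_comm (fun i k h => by simp only [Set.mem_preimage, h]) x

theorem cyc_pr (A : GCx R ι Λ σ) (S : Set Λ) {x : ι → R} (hx : A.d x = 0) :
    A.d (pr R (A.lab ⁻¹' S) x) = 0 := by
  have := A.d_pr (σ '' S) x
  rwa [Set.preimage_image_eq S A.inj, hx, map_zero] at this

/-- Strictness: a boundary with labels in `T` bounds a chain with labels in `σ ⁻¹' T`. -/
theorem strict (A : GCx R ι Λ σ) {T : Set Λ} {z y : ι → R} (hz : z ∈ A.ch T)
    (hy : A.d y = z) : ∃ y' ∈ A.ch (σ ⁻¹' T), A.d y' = z :=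
  ⟨_, pr_mem _ y, by rw [d_pr, hy, pr_eq_self hz]⟩

/-- The projection on homology to the labels in `S`. -/
noncomputable def prH (A : GCx R ι Λ σ) (S : Set Λ) : A.H →ₗ[R] A.H :=
  A.B.mapQ A.B ((pr R (A.lab ⁻¹' S)).restrict (p := A.Z) (q := A.Z)
    fun _ hx => A.cyc_pr S hx) (by
    rintro ⟨x, hx⟩ ⟨y, hy⟩
    refine ⟨pr R (A.lab ⁻¹' (σ ⁻¹' S)) y, ?_⟩
    have hy' : A.d y = x := hy
    rw [d_pr, hy']
    rfl)

theorem prH_cls (A : GCx R ι Λ σ) (S : Set Λ) {x : ι → R} (hx : A.d x = 0) :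
    A.prH S (A.cls x hx) = A.cls (pr R (A.lab ⁻¹' S) x) (A.cyc_pr S hx) := rfl

theorem prH_mem (A : GCx R ι Λ σ) (S : Set Λ) (c : A.H) : A.prH S c ∈ A.Hs S := by
  obtain ⟨x, hx, rfl⟩ := A.exists_cls c
  exact cls_mem_img _ (pr_mem _ x)

theorem prH_mem_inter (A : GCx R ι Λ σ) (S : Set Λ) {T : Set Λ} {c : A.H} (hc : c ∈ A.Hs T) :
    A.prH S c ∈ A.Hs (S ∩ T) := by
  obtain ⟨x, hx, hT, rfl⟩ := mem_img.1 hc
  exact cls_mem_img _ (pr_mem_inter _ hT)

theorem prH_eq_self (A : GCx R ι Λ σ) {S : Set Λ} {c : A.H} (hc : c ∈ A.Hs S) :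
    A.prH S c = c := by
  obtain ⟨x, hx, hS, rfl⟩ := mem_img.1 hc
  exact A.cls_congr _ _ (pr_eq_self hS)

theorem prH_eq_zero (A : GCx R ι Λ σ) {S T : Set Λ} (hd : Disjoint S T) {c : A.H}
    (hc : c ∈ A.Hs T) : A.prH S c = 0 := by
  obtain ⟨x, hx, hT, rfl⟩ := mem_img.1 hc
  exact (A.cls_congr _ (map_zero _) (pr_eq_zero (hd.preimage _) hT)).trans (A.cls_zero _)

theorem prH_add_compl (A : GCx R ι Λ σ) (S : Set Λ) (c : A.H) :
    A.prH S c + A.prH Sᶜ c = c := by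
  obtain ⟨x, hx, rfl⟩ := A.exists_cls c
  rw [prH_cls, prH_cls, ← A.cls_add _ _ (by rw [map_add, A.cyc_pr S hx, A.cyc_pr Sᶜ hx, add_zero])]
  exact A.cls_congr _ _ (pr_add_compl _ x)

theorem mem_Hs_iff (A : GCx R ι Λ σ) {S : Set Λ} {c : A.H} :
    c ∈ A.Hs S ↔ A.prH Sᶜ c = 0 := by
  refine ⟨fun h => A.prH_eq_zero disjoint_compl_left h, fun h => ?_⟩
  rw [← A.prH_add_compl S c, h, add_zero]
  exact A.prH_mem S c

theorem Hs_inter (A : GCx R ι Λ σ) (S T : Set Λ) : A.Hs (S ∩ T) = A.Hs S ⊓ A.Hs T := by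
  refine le_antisymm (le_inf (A.Hs_mono Set.inter_subset_left)
    (A.Hs_mono Set.inter_subset_right)) fun c hc => ?_
  rw [← A.prH_eq_self hc.1]
  exact A.prH_mem_inter S hc.2

theorem Hs_union (A : GCx R ι Λ σ) (S T : Set Λ) : A.Hs (S ∪ T) = A.Hs S ⊔ A.Hs T := by
  refine le_antisymm (fun c hc => ?_) (sup_le (A.Hs_mono Set.subset_union_left)
    (A.Hs_mono Set.subset_union_right))
  rw [← A.prH_add_compl S c]
  refine Submodule.add_mem_sup (A.prH_mem S c) (A.Hs_mono ?_ (A.prH_mem_inter Sᶜ hc))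
  rintro a ⟨h1, h2 | h2⟩
  · exact (h1 h2).elim
  · exact h2

theorem Hs_eq_iSup (A : GCx R ι Λ σ) (S : Set Λ) : A.Hs S = ⨆ l ∈ S, A.Hs {l} := by
  classical
  refine le_antisymm ?_ (iSup₂_le fun l hl => A.Hs_mono (Set.singleton_subset_iff.2 hl))
  have key : ∀ s : Finset Λ, (↑s : Set Λ) ⊆ S → A.Hs ↑s ≤ ⨆ l ∈ S, A.Hs {l} := by
    intro s
    induction s using Finset.induction_on with
    | empty => intro _; rw [A.Hs_eq_bot (by simp)]; exact bot_le
    | insert a s _ ih =>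
      intro h
      rw [Finset.coe_insert] at h ⊢
      rw [Set.insert_eq, Hs_union]
      exact sup_le (le_iSup₂_of_le (f := fun l (_ : l ∈ S) => A.Hs {l}) a
        (h (Set.mem_insert _ _)) le_rfl) (ih ((Set.subset_insert _ _).trans h))
  refine le_trans ?_ (key ((Finset.univ.image A.lab).filter (· ∈ S)) fun l hl => by
    simpa using (Finset.mem_filter.1 hl).2)
  refine A.img_mono (pc_mono fun i hi => ?_)
  simpa using hi

theorem iSup_Hs (A : GCx R ι Λ σ) : ⨆ l, A.Hs {l} = ⊤ := by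
  rw [← A.Hs_univ, A.Hs_eq_iSup Set.univ]
  simp

theorem iSupIndep_Hs (A : GCx R ι Λ σ) : iSupIndep fun l => A.Hs {l} := by
  intro l
  refine Disjoint.mono_right (c := A.Hs {l}ᶜ) (iSup₂_le fun j hj => A.Hs_mono ?_) ?_
  · exact Set.singleton_subset_iff.2 hj
  · rw [disjoint_iff, ← Hs_inter, Set.inter_compl_self]
    exact A.Hs_eq_bot fun _ => id

theorem map_mem_Hs {A : GCx R ι Λ σ} {B : GCx R κ Λ' σ'} {f : (ι → R) →ₗ[R] (κ → R)}
    (hf : IsCh A.toCx B.toCx f) {r : Λ → Λ' → Prop} (h : Sp f fun i k => r (A.lab i) (B.lab k))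
    {S : Set Λ} {T : Set Λ'} (hST : ∀ a ∈ S, ∀ b, r a b → b ∈ T) {c : A.H} (hc : c ∈ A.Hs S) :
    A.map B.toCx f hf c ∈ B.Hs T :=
  map_mem_img hf (fun _ hx => h.mem (fun _ hi _ hr => hST _ hi _ hr) hx) hc

theorem map_prH {A : GCx R ι Λ σ} {B : GCx R κ Λ' σ'} {f : (ι → R) →ₗ[R] (κ → R)}
    (hf : IsCh A.toCx B.toCx f) {r : Λ → Λ' → Prop} (h : Sp f fun i k => r (A.lab i) (B.lab k))
    {S : Set Λ} {T : Set Λ'} (hST : ∀ a b, r a b → (a ∈ S ↔ b ∈ T)) (c : A.H) :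
    A.map B.toCx f hf (A.prH S c) = B.prH T (A.map B.toCx f hf c) := by
  obtain ⟨x, hx, rfl⟩ := A.exists_cls c
  exact B.cls_congr (hf.cyc (A.cyc_pr S hx)) (B.cyc_pr T (hf.cyc hx))
    (h.pr_comm (fun i k hr => hST _ _ hr) x)

/-- Every non-zero class has a top degree. -/
theorem exists_top (A : GCx R ι Λ σ) (deg : Λ → ℚ) {c : A.H} (hc : c ≠ 0) :
    ∃ N, c ∈ A.Hs {l | deg l ≤ N} ∧ c ∉ A.Hs {l | deg l < N} := by
  classical
  let s := (Finset.univ.image fun i => deg (A.lab i)).filter fun N => c ∈ A.Hs {l | deg l ≤ N}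
  have key : ∀ M : Set Λ, c ∈ A.Hs M → ∃ N ∈ s, ∃ l ∈ M, deg l = N := by
    intro M hM
    let t := Finset.univ.filter fun i => A.lab i ∈ M
    have ht : t.Nonempty := by
      by_contra h
      rw [A.Hs_eq_bot (S := M) fun i hi => h ⟨i, by simpa [t] using hi⟩] at hM
      exact hc hM
    obtain ⟨i, hi, hmax⟩ := t.exists_max_image (fun i => deg (A.lab i)) ht
    refine ⟨deg (A.lab i), Finset.mem_filter.2 ⟨by simp, ?_⟩, A.lab i, by simpa [t] using hi, rfl⟩
    exact A.img_mono (pc_mono fun j hj => hmax j (by simpa [t] using hj)) hM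
  obtain ⟨N0, hN0, -⟩ := key Set.univ (by rw [Hs_univ]; trivial)
  obtain ⟨N, hN, hmin⟩ := s.exists_min_image id ⟨N0, hN0⟩
  refine ⟨N, (Finset.mem_filter.1 hN).2, fun h => ?_⟩
  obtain ⟨N', hN', l, hl, rfl⟩ := key _ h
  exact absurd (hmin _ hN') (not_le.2 hl)

/-- `u + ν` is injective when `u` is injective of degree zero and `ν` lowers the degree. -/
theorem inj_add (A : GCx R ι Λ σ) (deg : Λ → ℚ) {u ν : A.H →ₗ[R] A.H}
    (hu : Function.Injective u)
    (hup : ∀ N c, u (A.prH {l | deg l < N}ᶜ c) = A.prH {l | deg l < N}ᶜ (u c))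
    (hν : ∀ N, ∀ c ∈ A.Hs {l | deg l ≤ N}, ν c ∈ A.Hs {l | deg l < N}) :
    Function.Injective (u + ν) := by
  refine (injective_iff_map_eq_zero _).2 fun c h0 => by_contra fun hc => ?_
  obtain ⟨N, h1, h2⟩ := A.exists_top deg hc
  apply h2
  have e : u c = -ν c := eq_neg_of_add_eq_zero_left h0
  rw [mem_Hs_iff]
  apply hu
  rw [hup, map_zero, ← mem_Hs_iff, e]
  exact neg_mem (hν N c h1)

end GCx

/-- An injective endomorphism of a finite-dimensional space is onto on each invariant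
subspace. -/
theorem surj_on {F V : Type*} [Field F] [AddCommGroup V] [Module F V] [FiniteDimensional F V]
    {e : V →ₗ[F] V} (he : Function.Injective e) {S : Submodule F V} (hS : ∀ x ∈ S, e x ∈ S)
    {x : V} (hx : x ∈ S) : ∃ y ∈ S, e y = x := by
  have hi : Function.Injective (e.restrict hS) := fun a b h =>
    Subtype.ext (he (congrArg Subtype.val h))
  obtain ⟨y, hy⟩ := LinearMap.surjective_of_injective hi ⟨x, hx⟩
  exact ⟨y, y.2, congrArg Subtype.val hy⟩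

end Crest.Agent.X212.Win22
end

-- ▼ part X212/Win22/Main
section

/-!
WIN: the filtered triangle lemma from chain data.
-/

set_option linter.unusedSectionVars false

namespace Crest.Agent.X212.Win22

open Cx

/-- Shift of a (class, degree) label by the differential. -/
def sh {L : Type*} (l : L × ℚ) : L × ℚ := (l.1, l.2 - 1)

theorem sh_inj {L : Type*} : Function.Injective (sh (L := L)) := fun a b h => by
  have h1 : a.1 = b.1 := congrArg (fun x => x.1) h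
  have h2 : a.2 - 1 = b.2 - 1 := congrArg (fun x => x.2) h
  exact Prod.ext h1 (by linarith)

/-- Complexes whose generators carry a class in `L` and a rational degree. -/
abbrev QCx (R : Type*) [Ring R] (ι : Type*) [Fintype ι] [DecidableEq ι] (L : Type*) :=
  GCx R ι (L × ℚ) sh

/-- A bijective chain map is injective on homology. -/
theorem map_inj_of_bij {R V W : Type*} [Ring R] [AddCommGroup V] [Module R V] [AddCommGroup W]
    [Module R W] {A : Cx R V} {B : Cx R W} {u : V →ₗ[R] W} (hu : IsCh A B u)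
    (hb : Function.Bijective u) : Function.Injective (A.map B u hu) := by
  refine (injective_iff_map_eq_zero _).2 fun c hc => ?_
  obtain ⟨x, hx, rfl⟩ := A.exists_cls c
  obtain ⟨y, hy⟩ := (B.cls_eq_zero (hu.cyc hx)).1 hc
  obtain ⟨z, rfl⟩ := hb.2 y
  exact (A.cls_eq_zero hx).2 ⟨z, hb.1 (by rw [← hu, hy])⟩

variable {F : Type*} [Field F] [CharP F 2]
variable {ι κ μ : Type*} [Fintype ι] [DecidableEq ι] [Fintype κ] [DecidableEq κ] [Fintype μ]
  [DecidableEq μ] {L L' L'' : Type*}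

namespace QCx

/-- Degree of a generator. -/
def gr (A : QCx F ι L) (i : ι) : ℚ := (A.lab i).2

/-- The window of classes of degree at most `N`. -/
def le (A : QCx F ι L) (N : ℚ) : Submodule F A.H := A.Hs {l | l.2 ≤ N}

/-- The classes of class `s` and degree `q`. -/
def W (A : QCx F ι L) (l : L × ℚ) : Submodule F A.H := A.Hs {l}

theorem W_ind (A : QCx F ι L) : iSupIndep A.W := A.iSupIndep_Hs

theorem W_top (A : QCx F ι L) : ⨆ l, A.W l = ⊤ := A.iSup_Hs

theorem le_eq (A : QCx F ι L) (N : ℚ) : A.le N = ⨆ l ∈ {l : L × ℚ | l.2 ≤ N}, A.W l :=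
  A.Hs_eq_iSup _

theorem le_mono (A : QCx F ι L) {N M : ℚ} (h : N ≤ M) : A.le N ≤ A.le M :=
  A.Hs_mono fun _ hl => le_trans hl h

/-- `φ` raises the degree by at most `c`. -/
def Up (A : QCx F ι L) (B : QCx F κ L') (φ : (ι → F) →ₗ[F] (κ → F)) (c : ℚ) : Prop :=
  Sp φ fun i k => B.gr k ≤ A.gr i + c

theorem Up.map_mem {A : QCx F ι L} {B : QCx F κ L'} {φ : (ι → F) →ₗ[F] (κ → F)} {c : ℚ}
    (h : Up A B φ c) (hφ : IsCh A.toCx B.toCx φ) {N : ℚ} {x : A.H} (hx : x ∈ A.le N) :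
    A.map B.toCx φ hφ x ∈ B.le (N + c) :=
  GCx.map_mem_Hs hφ (r := fun a b => b.2 ≤ a.2 + c) h
    (fun a ha b hr => by
      have ha' : a.2 ≤ N := ha
      show b.2 ≤ N + c
      linarith) hx

theorem Up.mem {A : QCx F ι L} {B : QCx F κ L'} {φ : (ι → F) →ₗ[F] (κ → F)} {c : ℚ}
    (h : Up A B φ c) {N M : ℚ} (hM : N + c ≤ M) {x : ι → F} (hx : x ∈ A.ch {l | l.2 ≤ N}) :
    φ x ∈ B.ch {l | l.2 ≤ M} :=
  Sp.mem h (fun i hi k hr => by
    have hi' : A.gr i ≤ N := hi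
    show B.gr k ≤ M
    linarith) hx

/-- A homogeneous chain map sends a graded piece of the homology to a graded piece. -/
theorem map_mem_W {A : QCx F ι L} {B : QCx F κ L'} {φ : (ι → F) →ₗ[F] (κ → F)}
    (hφ : IsCh A.toCx B.toCx φ) {s : L} {s' : L'} {c : ℚ}
    (h : Sp φ fun i k => (A.lab i).1 = s ∧ (B.lab k).1 = s' ∧ B.gr k = A.gr i + c) {q : ℚ}
    {x : A.H} (hx : x ∈ A.W (s, q)) : A.map B.toCx φ hφ x ∈ B.W (s', q + c) :=
  GCx.map_mem_Hs hφ (r := fun a b => a.1 = s ∧ b.1 = s' ∧ b.2 = a.2 + c) h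
    (fun a ha b hr => by
      obtain rfl : a = (s, q) := ha
      exact Prod.ext hr.2.1 hr.2.2) hx

/-- A homogeneous chain map kills the pieces of the other classes. -/
theorem map_eq_zero_W {A : QCx F ι L} {B : QCx F κ L'} {φ : (ι → F) →ₗ[F] (κ → F)}
    (hφ : IsCh A.toCx B.toCx φ) {s : L} (h : Sp φ fun i _ => (A.lab i).1 = s) {t : L} {q : ℚ}
    (ht : t ≠ s) {x : A.H} (hx : x ∈ A.W (t, q)) : A.map B.toCx φ hφ x = 0 := by
  have := GCx.map_mem_Hs hφ (r := fun a _ => a.1 = s) h (T := ∅)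
    (fun a ha b hr => by
      obtain rfl : a = (t, q) := ha
      exact (ht hr).elim) hx
  rwa [B.Hs_eq_bot fun _ => id] at this

/-- `ψ` is homotopic to `u + ν`, with `u` of degree zero and injective on homology and `ν`
lowering the degree. -/
structure Uni (A : QCx F ι L) (ψ : (ι → F) →ₗ[F] (ι → F)) where
  G : (ι → F) →ₗ[F] (ι → F)
  u : (ι → F) →ₗ[F] (ι → F)
  ν : (ι → F) →ₗ[F] (ι → F)
  cu : IsCh A.toCx A.toCx u
  eq : ∀ x, A.d (G x) + G (A.d x) = ψ x + (u x + ν x)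
  du : Sp u fun i k => A.gr k = A.gr i
  dν : Sp ν fun i k => A.gr k < A.gr i
  inj : Function.Injective (A.map A.toCx u cu)

namespace Uni

variable {A : QCx F ι L} {ψ : (ι → F) →ₗ[F] (ι → F)} (U : Uni A ψ)

theorem cν (hψ : IsCh A.toCx A.toCx ψ) : IsCh A.toCx A.toCx U.ν := fun x => by
  have e1 := congrArg A.d (U.eq x)
  have e2 := U.eq (A.d x)
  rw [map_add, map_add, map_add, A.dd, hψ, U.cu] at e1
  rw [A.dd, map_zero] at e2
  linear_combination (norm := abel) e2 - e1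

theorem map_eq (hψ : IsCh A.toCx A.toCx ψ) :
    A.map A.toCx ψ hψ = A.map A.toCx U.u U.cu + A.map A.toCx U.ν (U.cν hψ) := by
  rw [← map_add' U.cu (U.cν hψ) (U.cu.add (U.cν hψ))]
  exact map_eq_of_htpy2 _ _ U.G U.eq

include U in
theorem map_inj (hψ : IsCh A.toCx A.toCx ψ) : Function.Injective (A.map A.toCx ψ hψ) := by
  rw [U.map_eq hψ]
  refine A.inj_add (fun l => l.2) U.inj (fun N c => ?_) fun N c hc => ?_
  · exact GCx.map_prH U.cu (r := fun a b => b.2 = a.2) U.du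
      (fun a b h => by simp only [Set.mem_compl_iff, Set.mem_ofPred_eq, h]) c
  · exact GCx.map_mem_Hs (A := A) (B := A) (U.cν hψ) (r := fun a b => b.2 < a.2) U.dν
      (S := {l | l.2 ≤ N}) (T := {l | l.2 < N}) (fun a ha b hr => lt_of_lt_of_le hr ha) hc

include U in
theorem map_le (hψ : IsCh A.toCx A.toCx ψ) (N : ℚ) :
    ∀ c ∈ A.le N, A.map A.toCx ψ hψ c ∈ A.le N := fun c hc => by
  rw [U.map_eq hψ]
  refine Submodule.add_mem _ ?_ ?_
  · exact GCx.map_mem_Hs (A := A) (B := A) U.cu (r := fun a b => b.2 = a.2) U.du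
      (S := {l | l.2 ≤ N}) (T := {l | l.2 ≤ N}) (fun a ha b hr => le_of_eq_of_le hr ha) hc
  · exact GCx.map_mem_Hs (A := A) (B := A) (U.cν hψ) (r := fun a b => b.2 < a.2) U.dν
      (S := {l | l.2 ≤ N}) (T := {l | l.2 ≤ N}) (fun a ha b hr => hr.le.trans ha) hc

include U in
theorem map_surj_le (hψ : IsCh A.toCx A.toCx ψ) {N : ℚ} {c : A.H} (hc : c ∈ A.le N) :
    ∃ c' ∈ A.le N, A.map A.toCx ψ hψ c' = c :=
  surj_on (U.map_inj hψ) (U.map_le hψ N) hc

end Uni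

end QCx

open QCx

/-- WIN. Filtered exactness at `B` of a triangle `A → B → C → A` of graded complexes. -/
theorem win {A : QCx F ι L} {B : QCx F κ L'} {C : QCx F μ L''}
    (T : Tri A.toCx B.toCx C.toCx) {c : ℚ} (hc : 0 ≤ c) (hg : Up B C T.g c) (hh : Up C A T.h c)
    (hB : Up B A T.hB c) (UA : Uni A T.ψ) (UB : Uni B T.rot.ψ) {N : ℚ} {x : B.H}
    (hx : x ∈ B.le N) (h0 : T.rot.F x = 0) : ∃ y ∈ A.le (N + 2 * c + 1), T.F y = x := by
  refine T.filt (P := B.ch {l | l.2 ≤ N}) (Q := C.ch {l | l.2 ≤ N + c + 1})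
    (S := A.ch {l | l.2 ≤ N + 2 * c + 1}) (fun z hz _ ⟨y, hy⟩ => ?_)
    (fun z hz => hB.mem (by linarith) hz) (fun y hy => hh.mem (by linarith) hy)
    (fun w hw => UA.map_surj_le T.cψ hw) (UB.map_inj T.rot.cψ) hx h0
  obtain ⟨y', h1, h2⟩ := C.strict (hg.mem le_rfl hz) hy
  refine ⟨y', pc_mono (fun i hi => ?_) h1, h2⟩
  have hi' : (C.lab i).2 - 1 ≤ N + c := hi
  show (C.lab i).2 ≤ N + c + 1
  linarith

/-- Exactness at `B`. -/
theorem win_exact {A : QCx F ι L} {B : QCx F κ L'} {C : QCx F μ L''}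
    (T : Tri A.toCx B.toCx C.toCx) (UA : Uni A T.ψ) (UB : Uni B T.rot.ψ) :
    LinearMap.ker T.rot.F = LinearMap.range T.F :=
  T.exact (LinearMap.surjective_of_injective (UA.map_inj T.cψ)) (UB.map_inj T.rot.cψ)

end Crest.Agent.X212.Win22
end

-- ▼ part X212/Win22/Hg
section

/-!
Graded spaces and graded complexes without a finiteness assumption on the total space; the
triangle lemma for locally finite gradings.
-/

set_option linter.unusedSectionVars false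

open Module Function

namespace Crest.Agent.X212.Win22

open Cx

/-- A grading. -/
structure Gd (F : Type*) [Field F] (V : Type*) [AddCommGroup V] [Module F V] (Λ : Type*) where
  W : Λ → Submodule F V
  ind : iSupIndep W
  top : ⨆ l, W l = ⊤

namespace Gd

variable {F : Type*} [Field F] {V V' : Type*} [AddCommGroup V] [Module F V] [AddCommGroup V']
  [Module F V'] {Λ Λ' : Type*} (g : Gd F V Λ)

/-- The sum of the pieces with labels in `S`. -/
def up (S : Set Λ) : Submodule F V := ⨆ l ∈ S, g.W l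

theorem W_le_up {S : Set Λ} {l : Λ} (h : l ∈ S) : g.W l ≤ g.up S :=
  le_iSup₂_of_le (f := fun l (_ : l ∈ S) => g.W l) l h le_rfl

theorem up_le {S : Set Λ} {P : Submodule F V} (h : ∀ l ∈ S, g.W l ≤ P) : g.up S ≤ P :=
  iSup₂_le h

theorem up_mono {S T : Set Λ} (h : S ⊆ T) : g.up S ≤ g.up T :=
  g.up_le fun _ hl => g.W_le_up (h hl)

theorem up_univ : g.up Set.univ = ⊤ := by
  rw [up, ← g.top]
  simp

theorem up_single (l : Λ) : g.up {l} = g.W l := by simp [up]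

theorem up_union (S T : Set Λ) : g.up (S ∪ T) = g.up S ⊔ g.up T := iSup_union

theorem up_eq_bot {S : Set Λ} (h : ∀ l ∈ S, g.W l = ⊥) : g.up S = ⊥ :=
  eq_bot_iff.2 (g.up_le fun l hl => (h l hl).le)

theorem disj {S T : Set Λ} (h : Disjoint S T) : Disjoint (g.up S) (g.up T) :=
  g.ind.disjoint_biSup_biSup h

theorem eq_zero {S : Set Λ} {x : V} (h1 : x ∈ g.up S) (h2 : x ∈ g.up Sᶜ) : x = 0 :=
  Submodule.disjoint_def.1 (g.disj disjoint_compl_right) x h1 h2

theorem split (S : Set Λ) (x : V) : ∃ a ∈ g.up S, ∃ b ∈ g.up Sᶜ, a + b = x := by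
  rw [← Submodule.mem_sup, ← up_union, Set.union_compl_self, up_univ]
  trivial

theorem map_up {g' : Gd F V' Λ'} {φ : V →ₗ[F] V'} {S : Set Λ} {T : Set Λ'}
    (h : ∀ l ∈ S, ∀ x ∈ g.W l, φ x ∈ g'.up T) {x : V} (hx : x ∈ g.up S) : φ x ∈ g'.up T :=
  g.up_le (P := (g'.up T).comap φ) h hx

theorem mono' {p q : Λ → Prop} (h : ∀ l, p l → q l) {x : V} (hx : x ∈ g.up {l | p l}) :
    x ∈ g.up {l | q l} := g.up_mono (S := {l | p l}) (T := {l | q l}) h hx

theorem map_up' {g' : Gd F V' Λ'} {φ : V →ₗ[F] V'} {p : Λ → Prop} {T : Set Λ'}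
    (h : ∀ l, p l → ∀ x ∈ g.W l, φ x ∈ g'.up T) {x : V} (hx : x ∈ g.up {l | p l}) :
    φ x ∈ g'.up T := g.map_up (S := {l | p l}) h hx

theorem exists_sum {S : Set Λ} {x : V} (hx : x ∈ g.up S) :
    ∃ (s : Finset S) (v : S → V), (∀ l : S, v l ∈ g.W l) ∧ ∑ l ∈ s, v l = x := by
  rw [up, iSup_subtype'] at hx
  obtain ⟨v, hv, e⟩ := (Submodule.mem_iSup_iff_exists_finsupp _ x).1 hx
  exact ⟨v.support, v, hv, e⟩

theorem exists_fin (deg : Λ → ℚ) (x : V) : ∃ D : Finset ℚ, x ∈ g.up {l | deg l ∈ D} := by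
  classical
  obtain ⟨s, v, hv, rfl⟩ := g.exists_sum (S := Set.univ) (x := x) (by rw [up_univ]; trivial)
  refine ⟨s.image fun l => deg l.1, sum_mem fun l hl => g.W_le_up ?_ (hv l)⟩
  exact Finset.mem_image_of_mem (fun l : (Set.univ : Set Λ) => deg l.1) hl

theorem exists_le (deg : Λ → ℚ) (x : V) : ∃ a, x ∈ g.up {l | deg l ≤ a} := by
  obtain ⟨D, hD⟩ := g.exists_fin deg x
  obtain ⟨a, ha⟩ := D.bddAbove
  exact ⟨a, g.mono' (fun _ hl => ha hl) hD⟩

/-- `u + ν` is injective if `u` is injective of degree zero and `ν` lowers the degree. -/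
theorem inj_add (deg : Λ → ℚ) {u ν : V →ₗ[F] V} (hu : Injective u)
    (du : ∀ l, ∀ x ∈ g.W l, u x ∈ g.up {k | deg k = deg l})
    (dν : ∀ l, ∀ x ∈ g.W l, ν x ∈ g.up {k | deg k < deg l}) : Injective (u + ν) := by
  classical
  refine (injective_iff_map_eq_zero _).2 fun x h0 => ?_
  obtain ⟨D, hD⟩ := g.exists_fin deg x
  induction D using Finset.induction_on_max with
  | empty => rwa [g.up_eq_bot (by simp)] at hD
  | insert N D hN ih =>
    have e : {l | deg l ∈ insert N D} = {l | deg l = N} ∪ {l | deg l ∈ D} := by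
      ext l
      simp
    rw [e, up_union] at hD
    obtain ⟨a, ha, b, hb, rfl⟩ := Submodule.mem_sup.1 hD
    have h1 : u a ∈ g.up {l | deg l = N} :=
      g.map_up' (p := fun l => deg l = N)
        (fun l hl x hx => g.mono' (fun k hk => hk.trans hl) (du l x hx)) ha
    have h2 : u b ∈ g.up {l | ¬deg l = N} :=
      g.map_up' (p := fun l => deg l ∈ D) (fun l hl x hx => g.mono'
        (fun k hk => hk.trans_ne (hN _ hl).ne) (du l x hx)) hb
    have h3 : ν a ∈ g.up {l | ¬deg l = N} :=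
      g.map_up' (p := fun l => deg l = N) (fun l hl x hx => g.mono'
        (fun k hk => (lt_of_lt_of_eq hk hl).ne) (dν l x hx)) ha
    have h4 : ν b ∈ g.up {l | ¬deg l = N} :=
      g.map_up' (p := fun l => deg l ∈ D) (fun l hl x hx => g.mono'
        (fun k hk => (lt_trans hk (hN _ hl)).ne) (dν l x hx)) hb
    have h5 : u a = -(u b + ν a + ν b) := by
      rw [LinearMap.add_apply, map_add, map_add] at h0
      linear_combination (norm := abel) h0
    have h6 : a = 0 := hu (by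
      rw [map_zero]
      exact g.eq_zero h1 (h5 ▸ neg_mem (add_mem (add_mem h2 h3) h4)))
    subst h6
    exact ih (by simpa using hb)

/-- ... and bijective if the windows are finite-dimensional. -/
theorem bij_add (deg : Λ → ℚ) (fd : ∀ a, FiniteDimensional F (g.up {l | deg l ≤ a}))
    {u ν : V →ₗ[F] V} (hu : Injective u)
    (du : ∀ l, ∀ x ∈ g.W l, u x ∈ g.up {k | deg k = deg l})
    (dν : ∀ l, ∀ x ∈ g.W l, ν x ∈ g.up {k | deg k < deg l}) : Bijective (u + ν) := by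
  have hi := g.inj_add deg hu du dν
  refine ⟨hi, fun x => ?_⟩
  obtain ⟨a, ha⟩ := g.exists_le deg x
  have hS : ∀ x ∈ g.up {l | deg l ≤ a}, (u + ν) x ∈ g.up {l | deg l ≤ a} := fun x hx =>
    g.map_up' (φ := u + ν) (fun l hl y hy => add_mem
      (g.mono' (fun k hk => hk.le.trans hl) (du l y hy))
      (g.mono' (fun k hk => hk.le.trans hl) (dν l y hy))) hx
  have := fd a
  obtain ⟨y, hy⟩ := LinearMap.surjective_of_injective (f := (u + ν).restrict hS)
    (fun a b h => Subtype.ext (hi (congrArg Subtype.val h))) ⟨x, ha⟩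
  exact ⟨y, congrArg Subtype.val hy⟩

theorem fd_up {S T : Set Λ} (hT : T.Finite) (h : ∀ l ∈ S, l ∉ T → g.W l = ⊥)
    (fd : ∀ l, FiniteDimensional F (g.W l)) : FiniteDimensional F (g.up S) := by
  have h1 : g.up S ≤ g.up T := g.up_le fun l hl => by
    by_cases hl' : l ∈ T
    · exact g.W_le_up hl'
    · rw [h l hl hl']
      exact bot_le
  have : Finite T := hT
  have : FiniteDimensional F (g.up T) := by
    rw [up, iSup_subtype']
    infer_instance
  exact Submodule.finiteDimensional_of_le h1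

end Gd

/-- A graded complex. -/
structure HCx (F : Type*) [Field F] (V : Type*) [AddCommGroup V] [Module F V] (Λ : Type*)
    (σ : Λ → Λ) extends Cx F V where
  g : Gd F V Λ
  inj : Injective σ
  hom : ∀ l, ∀ x ∈ g.W l, d x ∈ g.W (σ l)

namespace HCx

variable {F : Type*} [Field F] {V V' : Type*} [AddCommGroup V] [Module F V] [AddCommGroup V']
  [Module F V'] {Λ Λ' : Type*} {σ : Λ → Λ} {σ' : Λ' → Λ'} (A : HCx F V Λ σ)

theorem d_up {T : Set Λ} {x : V} (hx : x ∈ A.g.up (σ ⁻¹' T)) : A.d x ∈ A.g.up T :=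
  A.g.map_up (S := σ ⁻¹' T) (fun l hl y hy => A.g.W_le_up (l := σ l) hl (A.hom l y hy)) hx

theorem strict {T : Set Λ} {z z' y : V} (hz : z ∈ A.g.up T) (hz' : z' ∈ A.g.up Tᶜ)
    (hy : A.d y = z - z') : ∃ y' ∈ A.g.up (σ ⁻¹' T), A.d y' = z := by
  obtain ⟨a, ha, b, hb, rfl⟩ := A.g.split (σ ⁻¹' T) y
  refine ⟨a, ha, (sub_eq_zero.1 (A.g.eq_zero (sub_mem hz (A.d_up ha)) ?_)).symm⟩
  have e : z - A.d a = z' + A.d b := by
    rw [map_add] at hy
    linear_combination (norm := abel) -hy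
  rw [e]
  exact add_mem hz' (A.d_up (T := Tᶜ) hb)

theorem img_disj (S : Set Λ) : Disjoint (A.img (A.g.up S)) (A.img (A.g.up Sᶜ)) := by
  rw [Submodule.disjoint_def]
  intro c h1 h2
  obtain ⟨x, hx, hS, rfl⟩ := mem_img.1 h1
  obtain ⟨y, hy, hT, e⟩ := mem_img.1 h2
  obtain ⟨u, hu⟩ := (A.cls_eq_iff hx hy).1 e.symm
  obtain ⟨a, -, ha⟩ := A.strict hS hT hu
  exact (A.cls_eq_zero hx).2 ⟨a, ha⟩

theorem img_up (S : Set Λ) : A.img (A.g.up S) = ⨆ l ∈ S, A.img (A.g.W l) := by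
  refine le_antisymm (fun c hc => ?_) (iSup₂_le fun l hl => A.img_mono (A.g.W_le_up hl))
  classical
  obtain ⟨x, hx, hS, rfl⟩ := mem_img.1 hc
  obtain ⟨s, v, hv, rfl⟩ := A.g.exists_sum hS
  have h0 : ∀ l ∈ s, A.d (v l) = 0 :=
    (iSupIndep_iff_finsetSum_eq_zero_imp_eq_zero _).1
      (A.g.ind.comp (A.inj.comp Subtype.val_injective)) s (fun l => A.d (v l))
      (fun l _ => A.hom l _ (hv l)) (by rw [← map_sum, hx])
  have e : ∑ l ∈ s, v l = ∑ l ∈ s.attach, v l := (Finset.sum_attach s v).symm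
  rw [A.cls_congr hx (e ▸ hx) e, A.cls_sum s.attach (fun l => v l) fun l => h0 l l.2]
  exact sum_mem fun l _ => le_iSup₂_of_le (f := fun l (_ : l ∈ S) => A.img (A.g.W l)) l.1.1 l.1.2
    le_rfl (cls_mem_img _ (hv l))

/-- The grading of the homology. -/
def hg : Gd F A.H Λ where
  W l := A.img (A.g.W l)
  ind l := by
    have := A.img_disj {l}
    rw [A.g.up_single, A.img_up] at this
    exact this
  top := by
    rw [← A.img_top, ← A.g.up_univ, A.img_up]
    simp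

theorem hg_up (S : Set Λ) : A.hg.up S = A.img (A.g.up S) := (A.img_up S).symm

theorem fd_img {S : Submodule F V} [FiniteDimensional F S] : FiniteDimensional F (A.img S) := by
  have : FiniteDimensional F (S.comap A.Z.subtype) :=
    FiniteDimensional.of_injective (V₂ := S)
      ((A.Z.subtype.domRestrict _).codRestrict S fun x => x.2) fun a b h =>
        Subtype.ext (Subtype.ext (congrArg (fun z : S => (z : V)) h))
  exact Module.Finite.map _ _

variable {A} {B : HCx F V' Λ' σ'}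

theorem map_hg {f : V →ₗ[F] V'} (hf : IsCh A.toCx B.toCx f) {l : Λ} {T : Set Λ'}
    (h : ∀ x ∈ A.g.W l, f x ∈ B.g.up T) {c : A.H} (hc : c ∈ A.hg.W l) :
    A.map B.toCx f hf c ∈ B.hg.up T := by
  rw [hg_up]
  exact map_mem_img hf h hc

theorem map_hg_W {f : V →ₗ[F] V'} (hf : IsCh A.toCx B.toCx f) {l : Λ} {k : Λ'}
    (h : ∀ x ∈ A.g.W l, f x ∈ B.g.W k) {c : A.H} (hc : c ∈ A.hg.W l) :
    A.map B.toCx f hf c ∈ B.hg.W k := map_mem_img hf h hc

theorem map_hg_zero {f : V →ₗ[F] V'} (hf : IsCh A.toCx B.toCx f) {S : Submodule F V}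
    (h : ∀ x ∈ S, f x = 0) {c : A.H} (hc : c ∈ A.img S) : A.map B.toCx f hf c = 0 := by
  have := map_mem_img hf (T := ⊥) h hc
  rwa [img_bot] at this

theorem hg_bot {l : Λ} (h : A.g.W l = ⊥) : A.hg.W l = ⊥ := by
  show A.img _ = ⊥
  rw [h, img_bot]

/-- No boundaries in a piece with nothing above it. -/
theorem cls_ne {l : Λ} (h : ∀ k, σ k = l → A.g.W k = ⊥) {x : V} (hx : A.d x = 0)
    (hl : x ∈ A.g.W l) (h0 : A.cls x hx = 0) : x = 0 := by
  obtain ⟨y, hy⟩ := (A.cls_eq_zero hx).1 h0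
  obtain ⟨y', h1, h2⟩ := A.strict (T := {l}) (z' := 0) (y := y) (by rwa [A.g.up_single])
    (zero_mem _) (by rw [hy, sub_zero])
  rw [A.g.up_eq_bot (S := σ ⁻¹' {l}) fun k hk => h k hk] at h1
  rw [← h2, (Submodule.mem_bot F).1 h1, map_zero]

theorem map_hg_inj {f : V →ₗ[F] V'} (hf : IsCh A.toCx B.toCx f) {l : Λ} {k : Λ'}
    (h : ∀ x ∈ A.g.W l, f x ∈ B.g.W k) (hi : ∀ x ∈ A.g.W l, f x = 0 → x = 0)
    (hk : ∀ j, σ' j = k → B.g.W j = ⊥) {c : A.H} (hc : c ∈ A.hg.W l)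
    (h0 : A.map B.toCx f hf c = 0) : c = 0 := by
  obtain ⟨x, hx, hl, rfl⟩ := mem_img.1 hc
  obtain rfl := hi x hl (cls_ne hk (hf.cyc hx) (h x hl) h0)
  exact A.cls_zero hx

/-- A piece with nothing above and below it survives to the homology. -/
theorem finrank_hg {l : Λ} (h : ∀ k, σ k = l → A.g.W k = ⊥) (h' : A.g.W (σ l) = ⊥) :
    finrank F (A.hg.W l) = finrank F (A.g.W l) := by
  have cyc : ∀ x : A.g.W l, A.d x.1 = 0 := fun x => by
    have := A.hom l x.1 x.2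
    rwa [h'] at this
  let φ : A.g.W l →ₗ[F] A.hg.W l :=
    (A.mkH ∘ₗ (A.g.W l).subtype.codRestrict A.Z cyc).codRestrict _ fun x =>
      cls_mem_img (cyc x) x.2
  refine (LinearEquiv.ofBijective φ ⟨(injective_iff_map_eq_zero φ).2 fun x hx => ?_,
    fun c => ?_⟩).finrank_eq.symm
  · exact Subtype.ext (cls_ne h (cyc x) x.2 (congrArg Subtype.val hx))
  · obtain ⟨x, hx, hl, e⟩ := mem_img.1 c.2
    exact ⟨⟨x, hl⟩, Subtype.ext e⟩

/-- `ψ` is homotopic to `u + ν`, with `u` of degree zero and injective on homology and `ν`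
lowering the degree. -/
structure Uni [CharP F 2] (A : HCx F V Λ σ) (deg : Λ → ℚ) (ψ : V →ₗ[F] V) where
  G : V →ₗ[F] V
  u : V →ₗ[F] V
  ν : V →ₗ[F] V
  cu : IsCh A.toCx A.toCx u
  eq : ∀ x, A.d (G x) + G (A.d x) = ψ x + (u x + ν x)
  du : ∀ l, ∀ x ∈ A.g.W l, u x ∈ A.g.up {k | deg k = deg l}
  dν : ∀ l, ∀ x ∈ A.g.W l, ν x ∈ A.g.up {k | deg k < deg l}
  inj : Injective (A.map A.toCx u cu)

theorem Uni.bij [CharP F 2] {deg : Λ → ℚ} {ψ : V →ₗ[F] V} (U : Uni A deg ψ)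
    (fd : ∀ a, FiniteDimensional F (A.g.up {l | deg l ≤ a})) (hψ : IsCh A.toCx A.toCx ψ) :
    Bijective (A.map A.toCx ψ hψ) := by
  have cν : IsCh A.toCx A.toCx U.ν := fun x => by
    have e1 := congrArg A.d (U.eq x)
    have e2 := U.eq (A.d x)
    rw [map_add, map_add, map_add, A.dd, hψ, U.cu] at e1
    rw [A.dd, map_zero] at e2
    linear_combination (norm := abel) e2 - e1
  rw [map_eq_of_htpy2 hψ (U.cu.add cν) U.G U.eq, map_add' U.cu cν]
  refine A.hg.bij_add deg (fun a => ?_) U.inj (fun l c hc => map_hg U.cu (U.du l) hc)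
    fun l c hc => map_hg cν (U.dν l) hc
  have := fd a
  rw [hg_up]
  exact A.fd_img

end HCx

end Crest.Agent.X212.Win22
end

-- ▼ part X212/Win22/Ul
section

/-!
Ultraproducts of vector spaces over a finite field, and their graded parts.
-/

set_option linter.unusedSectionVars false

open Filter Module

noncomputable section

namespace Crest.Agent.X212.Win22

variable {F : Type*} [Field F] {ι : Type*}

section UP

variable (F) (l : Filter ι) (H : ι → Type*) [∀ m, AddCommGroup (H m)] [∀ m, Module F (H m)]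

/-- Families that vanish eventually. -/
def Nul : Submodule F (∀ m, H m) where
  carrier := {x | ∀ᶠ m in l, x m = 0}
  add_mem' := fun {x y} hx hy => (hx.and hy).mono fun m h => by simp [h.1, h.2]
  zero_mem' := Eventually.of_forall fun _ => rfl
  smul_mem' := fun r x hx => hx.mono fun m h => by simp [h]

/-- The reduced product. -/
def UP : Type _ := (∀ m, H m) ⧸ Nul F l H

instance : AddCommGroup (UP F l H) := inferInstanceAs (AddCommGroup (_ ⧸ Nul F l H))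
instance : Module F (UP F l H) := inferInstanceAs (Module F (_ ⧸ Nul F l H))

variable {H}

/-- The class of a family. -/
def um : (∀ m, H m) →ₗ[F] UP F l H := (Nul F l H).mkQ

variable {F l}

theorem um_surj : Function.Surjective (um F l (H := H)) := (Nul F l H).mkQ_surjective

theorem um_eq_zero {x : ∀ m, H m} : um F l x = 0 ↔ ∀ᶠ m in l, x m = 0 :=
  Submodule.Quotient.mk_eq_zero (Nul F l H)

theorem um_eq {x y : ∀ m, H m} : um F l x = um F l y ↔ ∀ᶠ m in l, x m = y m := by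
  rw [← sub_eq_zero, ← map_sub, um_eq_zero]
  simp only [Pi.sub_apply, sub_eq_zero]

variable (l) in
/-- The limit of a family of subspaces. -/
def ul (S : ∀ m, Submodule F (H m)) : Submodule F (UP F l H) :=
  (Submodule.pi Set.univ S).map (um F l)

theorem exists_rep {S : ∀ m, Submodule F (H m)} {y : UP F l H} (hy : y ∈ ul l S) :
    ∃ x : ∀ m, H m, (∀ m, x m ∈ S m) ∧ um F l x = y := by
  obtain ⟨x, hx, rfl⟩ := hy
  exact ⟨x, fun m => hx m trivial, rfl⟩

theorem um_mem {S : ∀ m, Submodule F (H m)} {x : ∀ m, H m} :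
    um F l x ∈ ul l S ↔ ∀ᶠ m in l, x m ∈ S m := by
  classical
  constructor
  · intro h
    obtain ⟨y, hy, e⟩ := exists_rep h
    exact (um_eq.1 e).mono fun m hm => hm ▸ hy m
  · intro h
    refine ⟨fun m => if x m ∈ S m then x m else 0, fun m _ => ?_, um_eq.2 (h.mono fun m hm => ?_)⟩
    · by_cases hm : x m ∈ S m <;> simp [hm]
    · simp [hm]

theorem ul_mono {S T : ∀ m, Submodule F (H m)} (h : ∀ᶠ m in l, S m ≤ T m) : ul l S ≤ ul l T := by
  intro y hy
  obtain ⟨x, hx, rfl⟩ := exists_rep hy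
  exact um_mem.2 (h.mono fun m hm => hm (hx m))

theorem ul_eq_bot {S : ∀ m, Submodule F (H m)} (h : ∀ᶠ m in l, S m = ⊥) : ul l S = ⊥ := by
  refine eq_bot_iff.2 fun y hy => ?_
  obtain ⟨x, hx, rfl⟩ := exists_rep hy
  exact um_eq_zero.2 (h.mono fun m hm => by simpa [hm] using hx m)

theorem ul_ne_bot [l.NeBot] {S : ∀ m, Submodule F (H m)} (h : ∀ᶠ m in l, S m ≠ ⊥) :
    ul l S ≠ ⊥ := by
  classical
  have : ∀ m, ∃ x ∈ S m, S m ≠ ⊥ → x ≠ 0 := fun m => by
    by_cases hm : S m = ⊥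
    · exact ⟨0, zero_mem _, fun h => (h hm).elim⟩
    · obtain ⟨x, hx, h0⟩ := (Submodule.ne_bot_iff _).1 hm
      exact ⟨x, hx, fun _ => h0⟩
  choose x hx h0 using this
  refine (Submodule.ne_bot_iff _).2 ⟨um F l x, um_mem.2 (Eventually.of_forall hx), fun e => ?_⟩
  obtain ⟨m, h1, h2⟩ := ((um_eq_zero.1 e).and h).exists
  exact h0 m h2 h1

theorem ul_sup (S T : ∀ m, Submodule F (H m)) :
    ul l (fun m => S m ⊔ T m) = ul l S ⊔ ul l T := by
  refine le_antisymm (fun y hy => ?_) (sup_le (ul_mono (Eventually.of_forall fun _ => le_sup_left))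
    (ul_mono (Eventually.of_forall fun _ => le_sup_right)))
  obtain ⟨x, hx, rfl⟩ := exists_rep hy
  choose a ha b hb e using fun m => Submodule.mem_sup.1 (hx m)
  have : x = a + b := funext fun m => (e m).symm
  rw [this, map_add]
  exact Submodule.add_mem_sup (um_mem.2 (Eventually.of_forall ha))
    (um_mem.2 (Eventually.of_forall hb))

theorem ul_disjoint {S T : ∀ m, Submodule F (H m)} (h : ∀ᶠ m in l, Disjoint (S m) (T m)) :
    Disjoint (ul l S) (ul l T) := by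
  rw [Submodule.disjoint_def]
  intro y h1 h2
  obtain ⟨x, rfl⟩ := um_surj y
  exact um_eq_zero.2 (((um_mem.1 h1).and ((um_mem.1 h2).and h)).mono fun m hm =>
    Submodule.disjoint_def.1 hm.2.2 _ hm.1 hm.2.1)

theorem iSup_ul_le {Λ : Type*} (W : ∀ m, Λ → Submodule F (H m)) (T : Set Λ) :
    ⨆ a ∈ T, ul l (fun m => W m a) ≤ ul l fun m => ⨆ a ∈ T, W m a :=
  iSup₂_le fun a ha => ul_mono (Eventually.of_forall fun m =>
    le_iSup₂_of_le (f := fun a (_ : a ∈ T) => W m a) a ha le_rfl)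

theorem ul_iSup_le {Λ : Type*} (W : ∀ m, Λ → Submodule F (H m)) {T : Set Λ} (hT : T.Finite) :
    (ul l fun m => ⨆ a ∈ T, W m a) ≤ ⨆ a ∈ T, ul l (fun m => W m a) := by
  induction T, hT using Set.Finite.induction_on with
  | empty => rw [ul_eq_bot (by simp)]; exact bot_le
  | insert _ _ ih =>
    simp only [iSup_insert]
    rw [ul_sup]
    exact sup_le_sup_left ih _

theorem ul_indep {Λ : Type*} {W : ∀ m, Λ → Submodule F (H m)}
    (h : ∀ᶠ m in l, iSupIndep (W m)) : iSupIndep fun a => ul l fun m => W m a := fun a =>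
  (ul_disjoint (T := fun m => ⨆ b ∈ {b | b ≠ a}, W m b) (h.mono fun _ hm => hm a)).mono_right
    (iSup_ul_le W {b | b ≠ a})

variable {H' : ι → Type*} [∀ m, AddCommGroup (H' m)] [∀ m, Module F (H' m)]

variable (l) in
/-- The limit of a family of maps. -/
def umap (f : ∀ m, H m →ₗ[F] H' m) : UP F l H →ₗ[F] UP F l H' :=
  (Nul F l H).mapQ (Nul F l H') (LinearMap.pi fun m => f m ∘ₗ LinearMap.proj m)
    fun x (hx : ∀ᶠ m in l, x m = 0) =>
      (hx.mono fun m hm => by simp [hm] : ∀ᶠ m in l, f m (x m) = 0)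

theorem umap_um (f : ∀ m, H m →ₗ[F] H' m) (x : ∀ m, H m) :
    umap l f (um F l x) = um F l fun m => f m (x m) := rfl

theorem umap_mem {f : ∀ m, H m →ₗ[F] H' m} {S : ∀ m, Submodule F (H m)}
    {T : ∀ m, Submodule F (H' m)} (h : ∀ᶠ m in l, ∀ x ∈ S m, f m x ∈ T m) {y : UP F l H}
    (hy : y ∈ ul l S) : umap l f y ∈ ul l T := by
  obtain ⟨x, hx, rfl⟩ := exists_rep hy
  exact um_mem.2 (h.mono fun m hm => hm _ (hx m))

theorem umap_eq_zero {f : ∀ m, H m →ₗ[F] H' m} {S : ∀ m, Submodule F (H m)}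
    (h : ∀ᶠ m in l, ∀ x ∈ S m, f m x = 0) {y : UP F l H} (hy : y ∈ ul l S) :
    umap l f y = 0 := by
  obtain ⟨x, hx, rfl⟩ := exists_rep hy
  exact um_eq_zero.2 (h.mono fun m hm => hm _ (hx m))

theorem umap_inj {f : ∀ m, H m →ₗ[F] H' m} {S : ∀ m, Submodule F (H m)}
    (h : ∀ᶠ m in l, ∀ x ∈ S m, f m x = 0 → x = 0) {y : UP F l H} (hy : y ∈ ul l S)
    (h0 : umap l f y = 0) : y = 0 := by
  obtain ⟨x, hx, rfl⟩ := exists_rep hy
  exact um_eq_zero.2 ((h.and (um_eq_zero.1 h0)).mono fun m hm => hm.1 _ (hx m) hm.2)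

theorem umap_surj {f : ∀ m, H m →ₗ[F] H' m} {S : ∀ m, Submodule F (H m)} {z : ∀ m, H' m}
    (h : ∀ᶠ m in l, ∃ x ∈ S m, f m x = z m) : ∃ y ∈ ul l S, umap l f y = um F l z := by
  classical
  have : ∀ m, ∃ x ∈ S m, (∃ x ∈ S m, f m x = z m) → f m x = z m := fun m => by
    by_cases hm : ∃ x ∈ S m, f m x = z m
    · obtain ⟨x, hx, e⟩ := hm
      exact ⟨x, hx, fun _ => e⟩
    · exact ⟨0, zero_mem _, fun h => (hm h).elim⟩
  choose x hx e using this
  exact ⟨um F l x, um_mem.2 (Eventually.of_forall hx), um_eq.2 (h.mono e)⟩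

/-- Over a finite field, bounded dimension passes to the ultralimit. -/
theorem ul_rank [Finite F] (𝒰 : Ultrafilter ι) {S : ∀ m, Submodule F (H m)} {C : ℕ}
    (h : ∀ᶠ m in (𝒰 : Filter ι), FiniteDimensional F (S m) ∧ finrank F (S m) ≤ C) :
    Module.rank F (ul (𝒰 : Filter ι) S) ≤ C := by
  classical
  refine rank_le fun s hs => ?_
  by_contra hlt
  rw [not_le] at hlt
  choose x hx e using fun v : s => exists_rep v.1.2
  have key : ∀ᶠ m in (𝒰 : Filter ι), ∃ c : s → F, c ≠ 0 ∧ ∑ v, c v • x v m = 0 := by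
    refine h.mono fun m hm => ?_
    have := hm.1
    have nl : ¬LinearIndependent F fun v : s => (⟨x v m, hx v m⟩ : S m) := fun li => by
      have := li.fintype_card_le_finrank
      rw [Fintype.card_coe] at this
      omega
    obtain ⟨c, hc, v, hv⟩ := Fintype.not_linearIndependent_iff.1 nl
    refine ⟨c, fun h0 => hv (congrFun h0 v), ?_⟩
    simpa using congrArg Subtype.val hc
  obtain ⟨c, hc⟩ := Ultrafilter.eventually_exists_iff.1 key
  obtain ⟨m0, hc0, -⟩ := hc.exists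
  refine hc0 (funext fun v => Fintype.linearIndependent_iff.1 hs c (Subtype.ext ?_) v)
  have : um F (𝒰 : Filter ι) (∑ v, c v • x v) = 0 :=
    um_eq_zero.2 (hc.mono fun m hm => by simpa using hm.2)
  rw [map_sum] at this
  simp only [map_smul, e] at this
  simpa using this

theorem ul_fd [Finite F] (𝒰 : Ultrafilter ι) {S : ∀ m, Submodule F (H m)} {C : ℕ}
    (h : ∀ᶠ m in (𝒰 : Filter ι), FiniteDimensional F (S m) ∧ finrank F (S m) ≤ C) :
    FiniteDimensional F (ul (𝒰 : Filter ι) S) ∧ finrank F (ul (𝒰 : Filter ι) S) ≤ C :=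
  ⟨Module.rank_lt_aleph0_iff.1 ((ul_rank 𝒰 h).trans_lt (Cardinal.natCast_lt_aleph0)),
    finrank_le_of_rank_le (ul_rank 𝒰 h)⟩

end UP

section Sub

variable {V : Type*} [AddCommGroup V] [Module F V] {Λ : Type*} (W : Λ → Submodule F V)

/-- The pieces inside their sum. -/
def sub (a : Λ) : Submodule F ↥(⨆ a, W a) := (W a).comap (⨆ a, W a).subtype

theorem mem_sub {a : Λ} {y : ↥(⨆ a, W a)} : y ∈ sub W a ↔ y.1 ∈ W a := Iff.rfl

theorem map_sub_eq (a : Λ) : (sub W a).map (⨆ a, W a).subtype = W a := by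
  rw [sub, Submodule.map_comap_subtype, inf_eq_right.2 (le_iSup W a)]

theorem mem_iSup_sub {T : Set Λ} {y : ↥(⨆ a, W a)} :
    y ∈ ⨆ a ∈ T, sub W a ↔ y.1 ∈ ⨆ a ∈ T, W a := by
  have e : (⨆ a ∈ T, sub W a).map (⨆ a, W a).subtype = ⨆ a ∈ T, W a := by
    simp only [Submodule.map_iSup, map_sub_eq]
  rw [← e]
  exact ⟨fun h => ⟨y, h, rfl⟩, fun ⟨z, hz, h⟩ => (Subtype.ext h : z = y) ▸ hz⟩

theorem sub_top : ⨆ a, sub W a = ⊤ := by
  refine eq_top_iff.2 fun y _ => ?_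
  have := (mem_iSup_sub W (T := Set.univ) (y := y)).2 (by simpa using y.2)
  simpa using this

theorem sub_indep (h : iSupIndep W) : iSupIndep (sub W) := fun a => by
  rw [Submodule.disjoint_def]
  intro y h1 h2
  exact Subtype.ext (Submodule.disjoint_def.1 (h a) _ h1
    ((mem_iSup_sub W (T := {b | b ≠ a})).1 h2))

/-- The piece inside the sum is isomorphic to the piece. -/
def subEquiv (a : Λ) : sub W a ≃ₗ[F] W a := Submodule.comapSubtypeEquivOfLe (le_iSup W a)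

end Sub

end Crest.Agent.X212.Win22
end
end

-- ▼ part X212/Bor5/Win
section

/-!
# Row 212, layer S (helper5): windows

The theory at the finite levels `m` (`z ∈ S^(2m+1)`), with constants that do not depend on `m`.
`Lim` is the passage to the limit `m → ∞`.
-/

set_option autoImplicit false

open Module Function Filter

noncomputable section

namespace Crest.Agent.X212.Bor5

/-- the homology of one manifold at all levels; `w s` is a lower bound of the degrees, congruent to the tower -/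
structure WOb : Type 1 where
  P : ℕ
  pos : 0 < P
  H : ℕ → Type
  [acg : ∀ m, AddCommGroup (H m)]
  [mdl : ∀ m, Module K (H m)]
  gr : ∀ m, ZMod P → ℚ → Submodule K (H m)
  ind : ∀ m, iSupIndep fun i : ZMod P × ℚ => gr m i.1 i.2
  top : ∀ m, ⨆ i : ZMod P × ℚ, gr m i.1 i.2 = ⊤
  U : ∀ m, H m →ₗ[K] H m
  U_mem : ∀ m s x y, y ∈ gr m s x → U m y ∈ gr m s (x - 2)
  w : ZMod P → ℚ
  lat : ∀ m s x, gr m s x ≠ ⊥ → ∃ k : ℕ, x = w s + k
  dim : ∀ s x, ∃ B : ℕ, ∀ᶠ m in atTop, FiniteDimensional K (gr m s x) ∧ finrank K (gr m s x) ≤ B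
  N : ℕ
  ev : ∀ s (k : ℕ), N ≤ k → Even k → ∀ᶠ m in atTop, finrank K (gr m s (w s + k)) = 1 ∧
    ∀ y ∈ gr m s (w s + k + 2), U m y = 0 → y = 0
  od : ∀ s (k : ℕ), N ≤ k → Odd k → ∀ᶠ m in atTop, gr m s (w s + k) = ⊥

attribute [instance] WOb.acg WOb.mdl

namespace WOb

variable (X : WOb)

/-- degrees at most `a` -/
def le (m : ℕ) (a : ℚ) : Submodule K (X.H m) := ⨆ (s : ZMod X.P) (x : ℚ) (_ : x ≤ a), X.gr m s x

/-- only towers, with bottoms `d` -/
def Pure (d : ZMod X.P → ℚ) : Prop := ∀ s x,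
  ((∃ k : ℕ, x = d s + 2 * k) → ∀ᶠ m in atTop, finrank K (X.gr m s x) = 1 ∧
    ∀ y ∈ X.gr m s (x + 2), X.U m y = 0 → y = 0) ∧
  ((¬∃ k : ℕ, x = d s + 2 * k) → ∀ᶠ m in atTop, X.gr m s x = ⊥)

end WOb

/-- the maps of one cobordism at all levels -/
structure WFam (A B : WOb) where
  F : ∀ m, ℤ → A.H m →ₗ[K] B.H m
  s : ℤ → ZMod A.P
  t : ℤ → ZMod B.P
  dg : ℤ → ℚ
  map : ∀ m κ x y, y ∈ A.gr m (s κ) x → F m κ y ∈ B.gr m (t κ) (x + dg κ)
  off : ∀ m κ c x y, c ≠ s κ → y ∈ A.gr m c x → F m κ y = 0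
  U : ∀ κ a, ∀ᶠ m in atTop, ∀ y ∈ A.le m a, F m κ (A.U m y) = B.U m (F m κ y)
  fin : ∀ m y, (support fun κ => F m κ y).Finite
  ufin : ∀ a, ∃ S : Finset ℤ, ∀ᶠ m in atTop, ∀ κ ∉ S, ∀ y ∈ A.le m a, F m κ y = 0

namespace WFam

variable {A B C : WOb} (f : WFam A B)

/-- the total map at level `m` -/
def tot (m : ℕ) (y : A.H m) : B.H m := ∑ᶠ κ, f.F m κ y

/-- the class `κ` is injective in all high degrees of the window -/
def Tow (κ : ℤ) : Prop := ∃ N, ∀ x, N ≤ x → ∀ᶠ m in atTop, ∀ y ∈ A.gr m (f.s κ) x, f.F m κ y = 0 → y = 0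

/-- the class `κ` is zero in all high degrees of the window -/
def Zer (κ : ℤ) : Prop := ∃ N, ∀ x, N ≤ x → ∀ᶠ m in atTop, ∀ y ∈ A.gr m (f.s κ) x, f.F m κ y = 0

/-- filtered exactness -/
def Ex (g : WFam B C) : Prop := (∀ a, ∀ᶠ m in atTop, ∀ y ∈ A.le m a, g.tot m (f.tot m y) = 0) ∧
  ∀ a, ∃ a', ∀ᶠ m in atTop, ∀ y ∈ B.le m a, g.tot m y = 0 → ∃ z ∈ A.le m a', f.tot m z = y

end WFam

/-- a graded isomorphism at all large levels -/
structure WIso (X Y : WOb) where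
  φ : ZMod X.P ≃ ZMod Y.P
  g : ∀ m, X.H m →ₗ[K] Y.H m
  map : ∀ m s x y, y ∈ X.gr m s x → g m y ∈ Y.gr m (φ s) x
  bij : ∀ s x, ∀ᶠ m in atTop, Set.BijOn (g m) (X.gr m s x) (Y.gr m (φ s) x)
  U : ∀ a, ∀ᶠ m in atTop, ∀ y ∈ X.le m a, g m (X.U m y) = Y.U m (g m y)

/-- transport of classes along an equation of orders -/
def cc {a b : ℕ} (h : a = b) : ZMod a ≃ ZMod b := (ZMod.ringEquivCongr h).toEquiv

/-- the limit: objects, elements, maps, and the transfer of all identities -/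
structure Lim : Type 1 where
  ob : WOb → Ob
  hP : ∀ X, (ob X).P = X.P
  pure : ∀ X d, X.Pure d → (ob X).Pure ∧ ∀ s, (ob X).d s = d (cc (hP X) s)
  iso : ∀ X Y, WIso X Y → Nonempty (Iso (ob X) (ob Y))
  /-- a sequence of bounded degree defines an element -/
  el : ∀ X : WOb, (∀ m, X.H m) → (ob X).H
  el_ne : ∀ (X : WOb) (y : ∀ m, X.H m) a, (∀ᶠ m in atTop, y m ∈ X.le m a ∧ y m ≠ 0) → el X y ≠ 0
  el_congr : ∀ (X : WOb) (y y' : ∀ m, X.H m), (∀ᶠ m in atTop, y m = y' m) → el X y = el X y'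
  el_zero : ∀ X : WOb, el X 0 = 0
  el_add : ∀ (X : WOb) (y y' : ∀ m, X.H m) a, (∀ᶠ m in atTop, y m ∈ X.le m a ∧ y' m ∈ X.le m a) →
    el X (y + y') = el X y + el X y'
  fam : ∀ {A B}, WFam A B → Fam (ob A) (ob B)
  hs : ∀ {A B} (f : WFam A B) κ, cc (hP A) ((fam f).s κ) = f.s κ
  ht : ∀ {A B} (f : WFam A B) κ, cc (hP B) ((fam f).t κ) = f.t κ
  hdg : ∀ {A B} (f : WFam A B), (fam f).dg = f.dg
  F_el : ∀ {A B} (f : WFam A B) κ (y : ∀ m, A.H m) a, (∀ᶠ m in atTop, y m ∈ A.le m a) →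
    (fam f).F κ (el A y) = el B fun m => f.F m κ (y m)
  surj : ∀ (X : WOb) (z : (ob X).H), ∃ y a, (∀ m, y m ∈ X.le m a) ∧ el X y = z
  tow : ∀ {A B} (f : WFam A B) κ, f.Tow κ → (∃ k : ℤ, B.w (f.t κ) = A.w (f.s κ) + f.dg κ + 2 * k) →
    ∃ N, ∀ x, N ≤ x → (fam f).F κ ((ob A).e ((fam f).s κ) x) = (ob B).e ((fam f).t κ) (x + f.dg κ)
  zer : ∀ {A B} (f : WFam A B) κ, f.Zer κ → ∃ N, ∀ x, N ≤ x → (fam f).F κ ((ob A).e ((fam f).s κ) x) = 0
  ex : ∀ {A B C} (f : WFam A B) (g : WFam B C), f.Ex g → Exact (fam f).tot (fam g).tot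

/-- LIM -/
def LimStmt : Prop := Nonempty Lim

end Crest.Agent.X212.Bor5
end
end

-- ▼ part X212/Win22/Tow
section

/-!
Towers: construction of the tower elements from the high degrees, and three facts on `Ob`.
-/

set_option autoImplicit false

open Module Function Filter

noncomputable section

namespace Crest.Agent.X212.Win22

open Bor5

theorem k_cases (c : K) : c = 0 ∨ c = 1 := by
  revert c
  decide

section

variable {H : Type*} [AddCommGroup H] [Module K H]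

theorem eq_of_mem_span {a b : H} (h : a ∈ K ∙ b) (ha : a ≠ 0) : a = b := by
  obtain ⟨c, rfl⟩ := Submodule.mem_span_singleton.1 h
  rcases k_cases c with rfl | rfl
  · exact (ha (zero_smul _ _)).elim
  · exact one_smul _ _

theorem le_span_of_finrank {S : Submodule K H} (h : finrank K S = 1) {b : H} (hb : b ∈ S)
    (h0 : b ≠ 0) : S ≤ K ∙ b := fun a ha => by
  obtain ⟨c, hc⟩ := (finrank_eq_one_iff_of_nonzero' (⟨b, hb⟩ : S)
    fun e => h0 (congrArg Subtype.val e)).1 h ⟨a, ha⟩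
  exact Submodule.mem_span_singleton.2 ⟨c, congrArg Subtype.val hc⟩

theorem exists_ne_of_finrank {S : Submodule K H} (h : finrank K S = 1) : ∃ b ∈ S, b ≠ 0 := by
  refine (Submodule.ne_bot_iff _).1 fun e => ?_
  rw [e, finrank_bot] at h
  exact zero_ne_one h

theorem exists_tower (U : H →ₗ[K] H) (G : ℤ → Submodule K H) (N : ℕ)
    (hU : ∀ j, ∀ y ∈ G (j + 1), U y ∈ G j) (h1 : ∀ j : ℤ, (N : ℤ) ≤ j → finrank K (G j) = 1)
    (hi : ∀ j : ℤ, (N : ℤ) ≤ j → ∀ y ∈ G (j + 1), U y = 0 → y = 0)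
    (h0 : ∀ j < 0, G j = ⊥) :
    ∃ (E : ℤ → H) (j0 : ℤ), (∀ j, E j ∈ G j) ∧ (∀ j, U (E (j + 1)) = E j) ∧
      (∀ j, E j ≠ 0 ↔ j0 ≤ j) ∧ j0 ≤ N := by
  classical
  have hg : ∀ j : ℤ, ∃ b ∈ G j, (N : ℤ) ≤ j → b ≠ 0 := fun j => by
    by_cases h : (N : ℤ) ≤ j
    · obtain ⟨b, hb, hb0⟩ := exists_ne_of_finrank (h1 j h)
      exact ⟨b, hb, fun _ => hb0⟩
    · exact ⟨0, zero_mem _, fun h' => (h h').elim⟩
  choose g gm g0 using hg
  have gU : ∀ j : ℤ, (N : ℤ) ≤ j → U (g (j + 1)) = g j := fun j hj =>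
    eq_of_mem_span (le_span_of_finrank (h1 j hj) (gm j) (g0 j hj) (hU j _ (gm _)))
      fun e => g0 (j + 1) (by omega) (hi j hj _ (gm _) e)
  let E : ℤ → H := fun j => if (N : ℤ) ≤ j then g j else (U ^ ((N : ℤ) - j).toNat) (g N)
  have low : ∀ j : ℤ, j ≤ N → E j = (U ^ ((N : ℤ) - j).toNat) (g N) := fun j hj => by
    by_cases h : (N : ℤ) ≤ j
    · obtain rfl : j = N := le_antisymm hj h
      simp [E]
    · simp [E, h]
  have EU : ∀ j, U (E (j + 1)) = E j := fun j => by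
    by_cases h : (N : ℤ) ≤ j
    · have h' : (N : ℤ) ≤ j + 1 := by omega
      simp only [E, if_pos h, if_pos h', gU j h]
    · rw [low j (by omega), low (j + 1) (by omega),
        show ((N : ℤ) - j).toNat = ((N : ℤ) - (j + 1)).toNat + 1 by omega, pow_succ']
      rfl
  have Em : ∀ j, E j ∈ G j := fun j => by
    by_cases h : (N : ℤ) ≤ j
    · simp only [E, if_pos h, gm j]
    · have : ∀ n : ℕ, E (N - n) ∈ G (N - n) := fun n => by
        induction n with
        | zero => simpa [E] using gm N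
        | succ n ih =>
          rw [← EU]
          refine hU _ _ ?_
          rwa [show (N : ℤ) - (n + 1 : ℕ) + 1 = N - n by push_cast; ring]
      have e := this ((N : ℤ) - j).toNat
      rwa [show (N : ℤ) - (((N : ℤ) - j).toNat : ℕ) = j by omega] at e
  have EN : E N ≠ 0 := by simpa [E] using g0 N le_rfl
  obtain ⟨j0, hj0, hmin⟩ := Int.exists_least_of_bdd (P := fun j => E j ≠ 0)
    ⟨0, fun j hj => by
      by_contra h
      exact hj (by simpa [h0 j (by omega)] using Em j)⟩ ⟨N, EN⟩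
  refine ⟨E, j0, Em, EU, fun j => ⟨hmin j, fun h => ?_⟩, hmin _ EN⟩
  induction j, h using Int.leInduction with
  | base => exact hj0
  | succ j _ ih => exact fun e => ih (by rw [← EU, e, map_zero])

/-- A surjective graded map is onto on every piece. -/
theorem map_piece {F A B I J : Type*} [Field F] [AddCommGroup A] [Module F A] [AddCommGroup B]
    [Module F B] {W : I → Submodule F A} {W' : J → Submodule F B} (top : ⨆ i, W i = ⊤)
    (ind : iSupIndep W') {τ : I → J} (hτ : Injective τ) {g : A →ₗ[F] B} (hg : Surjective g)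
    (h : ∀ i, ∀ y ∈ W i, g y ∈ W' (τ i)) (i : I) {z : B} (hz : z ∈ W' (τ i)) :
    ∃ y ∈ W i, g y = z := by
  obtain ⟨y, rfl⟩ := hg z
  have hy : y ∈ W i ⊔ ⨆ (j) (_ : j ≠ i), W j := by
    rw [← iSup_split_single, top]
    trivial
  obtain ⟨a, ha, b, hb, rfl⟩ := Submodule.mem_sup.1 hy
  have hb' : g b ∈ ⨆ (k) (_ : k ≠ τ i), W' k := by
    have : (⨆ (j) (_ : j ≠ i), W j) ≤ (⨆ (k) (_ : k ≠ τ i), W' k).comap g :=
      iSup₂_le fun j hj y hy => le_iSup₂_of_le (f := fun k (_ : k ≠ τ i) => W' k) (τ j)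
        (fun e => hj (hτ e)) le_rfl (h j y hy)
    exact this hb
  have h0 : g b = 0 := Submodule.disjoint_def.1 (ind (τ i)) _
    (by simpa using sub_mem hz (h i a ha)) hb'
  exact ⟨a, ha, by rw [map_add, h0, add_zero]⟩

end

/-- A pure object is recognised from its graded pieces. -/
theorem pure_of (X : Ob) (D : ZMod X.P → ℚ)
    (h1 : ∀ s (k : ℕ), finrank K (X.gr s (D s + 2 * k)) = 1 ∧
      ∀ y ∈ X.gr s (D s + 2 * k + 2), X.U y = 0 → y = 0)
    (h0 : ∀ s x, (¬∃ k : ℕ, x = D s + 2 * k) → X.gr s x = ⊥) :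
    X.Pure ∧ ∀ s, X.d s = D s := by
  have hd : ∀ s, X.d s = D s := fun s => by
    have e0 : X.e s (X.d s) ≠ 0 := (X.e_ne s _).2 ⟨0, by simp⟩
    obtain ⟨k, hk⟩ : ∃ k : ℕ, X.d s = D s + 2 * k := by
      by_contra h
      exact e0 (by simpa [h0 s _ h] using X.e_mem s (X.d s))
    rcases k with _ | k
    · simpa using hk
    · exfalso
      refine e0 ((h1 s k).2 _ ?_ ?_)
      · rw [show D s + 2 * (k : ℚ) + 2 = X.d s by rw [hk]; push_cast; ring]
        exact X.e_mem s _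
      · rw [X.U_e]
        by_contra h
        obtain ⟨n, hn⟩ := (X.e_ne s _).1 h
        have : (0 : ℚ) ≤ n := Nat.cast_nonneg n
        linarith
  refine ⟨eq_top_iff.2 ?_, hd⟩
  rw [← X.top]
  refine iSup_le fun i => ?_
  by_cases h : ∃ k : ℕ, i.2 = D i.1 + 2 * k
  · obtain ⟨k, hk⟩ := h
    refine (le_span_of_finrank (by rw [hk]; exact (h1 _ k).1) (X.e_mem i.1 i.2)
      ((X.e_ne _ _).2 ⟨k, by rw [hd, hk]⟩)).trans (Submodule.span_mono ?_)
    rintro _ rfl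
    exact ⟨_, _, rfl⟩
  · rw [h0 _ _ h]
    exact bot_le

/-- In high degrees there is only the tower. -/
theorem exists_high (X : Ob) : ∃ N : ℚ, ∀ s x, N ≤ x → X.gr s x ≤ K ∙ X.e s x := by
  obtain ⟨N, hN⟩ := (X.fin.image Prod.snd).bddAbove
  refine ⟨N + 1, fun s x hx => by_contra fun h => ?_⟩
  have := hN ⟨(s, x), h, rfl⟩
  simp only at this
  linarith

/-- A homogeneous map that is injective in high degrees matches the towers there. -/
theorem tow_of (A B : Ob) (φ : A.H →ₗ[K] B.H) (s : ZMod A.P) (t : ZMod B.P) (δ : ℚ)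
    (hm : ∀ x, ∀ y ∈ A.gr s x, φ y ∈ B.gr t (x + δ)) {k : ℤ} (hk : B.d t = A.d s + δ + 2 * k)
    {N0 : ℚ} (hi : ∀ x, N0 ≤ x → ∀ y ∈ A.gr s x, φ y = 0 → y = 0) :
    ∃ N, ∀ x, N ≤ x → φ (A.e s x) = B.e t (x + δ) := by
  obtain ⟨M, hM⟩ := exists_high B
  refine ⟨max N0 (max (M - δ) (A.d s)), fun x hx => ?_⟩
  simp only [max_le_iff] at hx
  by_cases h : A.e s x = 0
  · rw [h, map_zero]
    by_contra h'
    obtain ⟨n, hn⟩ := (B.e_ne t _).1 (Ne.symm h')
    have e : x = A.d s + 2 * ((k + n : ℤ) : ℚ) := by push_cast; linarith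
    have h2 : 0 ≤ k + n := by
      have : (0 : ℚ) ≤ ((k + n : ℤ) : ℚ) := by linarith [hx.2.2]
      exact_mod_cast this
    obtain ⟨r, hr⟩ := Int.eq_ofNat_of_zero_le h2
    exact (A.e_ne s x).2 ⟨r, by rw [e, hr, Int.cast_natCast]⟩ h
  · exact eq_of_mem_span (hM t _ (by linarith [hx.2.1]) (hm x _ (A.e_mem s x)))
      fun e => h (hi x hx.1 _ (A.e_mem s x) e)

end Crest.Agent.X212.Win22
end
end

-- ▼ part X212/Win22/Lim
section

/-!
LIM: the ultralimit of the window theory.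
-/

set_option autoImplicit false

open Module Function Filter

noncomputable section

namespace Crest.Agent.X212.Win22

open Bor5

/-- the ultrafilter -/
abbrev uf : Filter ℕ := (hyperfilter ℕ : Filter ℕ)

theorem ev_uf {p : ℕ → Prop} (h : ∀ᶠ m in atTop, p m) : ∀ᶠ m in uf, p m :=
  h.filter_mono (Nat.cofinite_eq_atTop ▸ hyperfilter_le_cofinite)

section One

variable (X : WOb)

/-- limit pieces -/
def LW (i : ZMod X.P × ℚ) : Submodule K (UP K uf X.H) := ul uf fun m => X.gr m i.1 i.2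

/-- limit space -/
abbrev LH : Type := ↥(⨆ i, LW X i)

/-- limit windows -/
def Lle (a : ℚ) : Submodule K (UP K uf X.H) := ul uf fun m => X.le m a

theorem gr_le_le (m : ℕ) (s : ZMod X.P) {x a : ℚ} (h : x ≤ a) : X.gr m s x ≤ X.le m a :=
  le_iSup_of_le s (le_iSup₂_of_le (f := fun x (_ : x ≤ a) => X.gr m s x) x h le_rfl)

theorem le_mono (m : ℕ) {a b : ℚ} (h : a ≤ b) : X.le m a ≤ X.le m b :=
  iSup_le fun s => iSup₂_le fun _ hx => gr_le_le X m s (hx.trans h)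

theorem Lle_le (a : ℚ) : Lle X a ≤ ⨆ i, LW X i := by
  have : NeZero X.P := ⟨X.pos.ne'⟩
  let T : Set (ZMod X.P × ℚ) := {i | i.2 ≤ a ∧ ∃ k : ℕ, i.2 = X.w i.1 + k}
  have hT : T.Finite := by
    refine (Set.finite_iUnion fun s : ZMod X.P =>
      (Set.finite_le_nat ⌈a - X.w s⌉₊).image fun k : ℕ => (s, X.w s + k)).subset ?_
    rintro ⟨s, x⟩ ⟨h1, k, hk⟩
    obtain rfl : x = X.w s + k := hk
    refine Set.mem_iUnion.2 ⟨s, k, ?_, rfl⟩
    have h2 : (k : ℚ) ≤ a - X.w s := by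
      have : X.w s + k ≤ a := h1
      linarith
    exact_mod_cast h2.trans (Nat.le_ceil _)
  refine le_trans (ul_mono (T := fun m => ⨆ i ∈ T, X.gr m i.1 i.2)
    (Eventually.of_forall fun m => iSup_le fun s => iSup₂_le fun x hx => ?_))
    ((ul_iSup_le (fun m (i : ZMod X.P × ℚ) => X.gr m i.1 i.2) hT).trans
      (iSup₂_le fun i _ => le_iSup (LW X) i))
  by_cases h : X.gr m s x = ⊥
  · rw [h]
    exact bot_le
  · exact le_iSup₂_of_le (f := fun (i : ZMod X.P × ℚ) (_ : i ∈ T) => X.gr m i.1 i.2) (s, x)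
      ⟨hx, X.lat m s x h⟩ le_rfl

theorem exists_Lle (y : LH X) : ∃ a, y.1 ∈ Lle X a := by
  obtain ⟨y, hy⟩ := y
  induction hy using Submodule.iSup_induction' with
  | mem i y hy => exact ⟨i.2, ul_mono (Eventually.of_forall fun m => gr_le_le X m i.1 le_rfl) hy⟩
  | zero => exact ⟨0, zero_mem _⟩
  | add y z _ _ hy hz =>
    obtain ⟨a, ha⟩ := hy
    obtain ⟨b, hb⟩ := hz
    exact ⟨max a b, add_mem
      (ul_mono (Eventually.of_forall fun m => le_mono X m (le_max_left _ _)) ha)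
      (ul_mono (Eventually.of_forall fun m => le_mono X m (le_max_right _ _)) hb)⟩

variable {X} in
/-- the limit of a family of maps that is homogeneous on every piece -/
def Lmap {Y : WOb} (f : ∀ m, X.H m →ₗ[K] Y.H m)
    (h : ∀ s x, ∃ t x', ∀ m, ∀ y ∈ X.gr m s x, f m y ∈ Y.gr m t x') : LH X →ₗ[K] LH Y :=
  (umap uf f).restrict fun y hy => (iSup_le (a := (⨆ i, LW Y i).comap (umap uf f)) fun i z hz => by
    obtain ⟨t, x', e⟩ := h i.1 i.2
    exact le_iSup (LW Y) (t, x') (umap_mem (Eventually.of_forall e) hz)) hy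

theorem Lmap_val {Y : WOb} (f : ∀ m, X.H m →ₗ[K] Y.H m) (h) (y : LH X) :
    (Lmap f h y).1 = umap uf f y.1 := rfl

/-- limit grading -/
def Lgr (s : ZMod X.P) (x : ℚ) : Submodule K (LH X) := sub (LW X) (s, x)

/-- limit `U` -/
def LU : LH X →ₗ[K] LH X := Lmap X.U fun s x => ⟨s, x - 2, fun m y hy => X.U_mem m s x y hy⟩

theorem LU_mem (s : ZMod X.P) (x : ℚ) (y : LH X) (hy : y ∈ Lgr X s x) :
    LU X y ∈ Lgr X s (x - 2) :=
  umap_mem (Eventually.of_forall fun m y hy => X.U_mem m s x y hy) hy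

theorem Lgr_bot {s : ZMod X.P} {x : ℚ} (h : ∀ᶠ m in atTop, X.gr m s x = ⊥) : Lgr X s x = ⊥ := by
  refine eq_bot_iff.2 fun y hy => Subtype.ext ?_
  have : y.1 ∈ ul uf fun m => X.gr m s x := hy
  rwa [ul_eq_bot (ev_uf h)] at this

theorem Lgr_fd (s : ZMod X.P) (x : ℚ) : FiniteDimensional K (Lgr X s x) := by
  obtain ⟨B, hB⟩ := X.dim s x
  have : FiniteDimensional K (LW X (s, x)) := (ul_fd (hyperfilter ℕ) (ev_uf hB)).1
  exact (subEquiv (LW X) (s, x)).symm.finiteDimensional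

theorem Lgr_one {s : ZMod X.P} {x : ℚ} (h : ∀ᶠ m in atTop, finrank K (X.gr m s x) = 1) :
    finrank K (Lgr X s x) = 1 := by
  have h1 := ul_fd (hyperfilter ℕ) (S := fun m => X.gr m s x) (C := 1)
    (ev_uf (h.mono fun m hm => ⟨finite_of_finrank_eq_succ hm, hm.le⟩))
  have h2 : LW X (s, x) ≠ ⊥ := ul_ne_bot (ev_uf (h.mono fun m hm e => by
    rw [e, finrank_bot] at hm
    exact zero_ne_one hm))
  have : FiniteDimensional K (LW X (s, x)) := h1.1
  have h3 : finrank K (LW X (s, x)) ≠ 0 := fun e => h2 (Submodule.finrank_eq_zero.1 e)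
  have h4 : finrank K (LW X (s, x)) ≤ 1 := h1.2
  rw [Lgr, (subEquiv (LW X) (s, x)).finrank_eq]
  omega

theorem LU_inj {s : ZMod X.P} {x : ℚ}
    (h : ∀ᶠ m in atTop, ∀ y ∈ X.gr m s x, X.U m y = 0 → y = 0) :
    ∀ y ∈ Lgr X s x, LU X y = 0 → y = 0 := fun _ hy h0 =>
  Subtype.ext (umap_inj (ev_uf h) hy (congrArg Subtype.val h0))

theorem Lgr_lat {s : ZMod X.P} {x : ℚ} (h : ¬∃ k : ℕ, x = X.w s + k) : Lgr X s x = ⊥ :=
  Lgr_bot X (Eventually.of_forall fun m => by_contra fun e => h (X.lat m s x e))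

theorem Ltower (s : ZMod X.P) : ∃ (E : ℤ → LH X) (j0 : ℤ),
    (∀ j : ℤ, E j ∈ Lgr X s (X.w s + 2 * j)) ∧ (∀ j, LU X (E (j + 1)) = E j) ∧
      (∀ j, E j ≠ 0 ↔ j0 ≤ j) ∧ j0 ≤ X.N := by
  have key : ∀ j : ℤ, (X.N : ℤ) ≤ j → ∃ k : ℕ, X.N ≤ k ∧ Even k ∧ (2 * j : ℚ) = k := fun j hj => by
    obtain ⟨r, rfl⟩ := Int.eq_ofNat_of_zero_le (le_trans (Int.natCast_nonneg _) hj)
    exact ⟨2 * r, by omega, even_two_mul r, by push_cast; rfl⟩
  refine exists_tower (LU X) (fun j => Lgr X s (X.w s + 2 * j)) X.N (fun j y hy => ?_)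
    (fun j hj => ?_) (fun j hj => ?_) fun j hj => Lgr_lat X ?_
  · have := LU_mem X s _ y hy
    rwa [show X.w s + 2 * ((j + 1 : ℤ) : ℚ) - 2 = X.w s + 2 * j by push_cast; ring] at this
  · obtain ⟨k, h1, h2, e⟩ := key j hj
    rw [e]
    exact Lgr_one X ((X.ev s k h1 h2).mono fun _ h => h.1)
  · obtain ⟨k, h1, h2, e⟩ := key j hj
    rw [show X.w s + 2 * ((j + 1 : ℤ) : ℚ) = X.w s + k + 2 by rw [← e]; push_cast; ring]
    exact LU_inj X ((X.ev s k h1 h2).mono fun _ h => h.2)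
  · rintro ⟨k, hk⟩
    have h1 : (j : ℚ) < 0 := by exact_mod_cast hj
    have h2 : (0 : ℚ) ≤ k := Nat.cast_nonneg k
    linarith

/-- tower elements by index -/
def LE (s : ZMod X.P) : ℤ → LH X := (Ltower X s).choose

/-- index of the bottom -/
def Lj (s : ZMod X.P) : ℤ := (Ltower X s).choose_spec.choose

theorem LE_spec (s : ZMod X.P) :
    (∀ j : ℤ, LE X s j ∈ Lgr X s (X.w s + 2 * j)) ∧ (∀ j, LU X (LE X s (j + 1)) = LE X s j) ∧
      (∀ j, LE X s j ≠ 0 ↔ Lj X s ≤ j) ∧ Lj X s ≤ X.N := (Ltower X s).choose_spec.choose_spec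

open Classical in
/-- tower elements by degree -/
def Le (s : ZMod X.P) (x : ℚ) : LH X :=
  if h : ∃ j : ℤ, x = X.w s + 2 * j then LE X s h.choose else 0

theorem Le_eq (s : ZMod X.P) (j : ℤ) : Le X s (X.w s + 2 * j) = LE X s j := by
  have h : ∃ i : ℤ, X.w s + 2 * j = X.w s + 2 * i := ⟨j, rfl⟩
  have e : (j : ℚ) = h.choose := by linarith [h.choose_spec]
  rw [Le, dif_pos h, ← Int.cast_injective e]

theorem Le_not {s : ZMod X.P} {x : ℚ} (h : ¬∃ j : ℤ, x = X.w s + 2 * j) : Le X s x = 0 :=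
  dif_neg h

/-- the limit object -/
def ob : Ob where
  H := LH X
  P := X.P
  pos := X.pos
  gr := Lgr X
  ind := sub_indep (LW X) (ul_indep (W := fun m (i : ZMod X.P × ℚ) => X.gr m i.1 i.2)
    (Eventually.of_forall X.ind))
  top := sub_top (LW X)
  fd := Lgr_fd X
  U := LU X
  U_mem := LU_mem X
  d s := X.w s + 2 * Lj X s
  e := Le X
  e_mem s x := by
    by_cases h : ∃ j : ℤ, x = X.w s + 2 * j
    · obtain ⟨j, rfl⟩ := h
      rw [Le_eq]
      exact (LE_spec X s).1 j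
    · rw [Le_not X h]
      exact zero_mem _
  e_ne s x := by
    constructor
    · intro h0
      obtain ⟨j, rfl⟩ : ∃ j : ℤ, x = X.w s + 2 * j := by_contra fun h => h0 (Le_not X h)
      rw [Le_eq, (LE_spec X s).2.2.1] at h0
      obtain ⟨k, rfl⟩ := Int.le.dest h0
      exact ⟨k, by push_cast; ring⟩
    · rintro ⟨k, rfl⟩
      rw [show X.w s + 2 * (Lj X s : ℚ) + 2 * k = X.w s + 2 * ((Lj X s + k : ℤ) : ℚ) by
        push_cast; ring, Le_eq, (LE_spec X s).2.2.1]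
      omega
  U_e s x := by
    by_cases h : ∃ j : ℤ, x = X.w s + 2 * j
    · obtain ⟨j, rfl⟩ := h
      rw [show X.w s + 2 * (j : ℚ) - 2 = X.w s + 2 * ((j - 1 : ℤ) : ℚ) by push_cast; ring,
        Le_eq, Le_eq, ← (LE_spec X s).2.1 (j - 1), sub_add_cancel]
    · rw [Le_not X h, map_zero, Le_not]
      rintro ⟨j, hj⟩
      exact h ⟨j + 1, by push_cast; linarith⟩
  fin := by
    have : NeZero X.P := ⟨X.pos.ne'⟩
    refine (Set.finite_iUnion fun s : ZMod X.P =>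
      (Set.finite_lt_nat (2 * X.N)).image fun k : ℕ => (s, X.w s + k)).subset ?_
    rintro ⟨s, x⟩ h
    obtain ⟨k, rfl⟩ : ∃ k : ℕ, x = X.w s + k := by_contra fun e => h (by
      rw [Lgr_lat X e]; exact bot_le)
    refine Set.mem_iUnion.2 ⟨s, k, by_contra fun hk => h ?_, rfl⟩
    have hk' : 2 * X.N ≤ k := not_lt.1 hk
    rcases Nat.even_or_odd k with he | ho
    · have h1 := Lgr_one X ((X.ev s k (by omega) he).mono fun _ h => h.1)
      obtain ⟨r, rfl⟩ := he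
      have e : X.w s + ((r + r : ℕ) : ℚ) = X.w s + 2 * ((r : ℤ) : ℚ) := by push_cast; ring
      rw [e] at h1
      show Lgr X s (X.w s + ((r + r : ℕ) : ℚ)) ≤ K ∙ Le X s (X.w s + ((r + r : ℕ) : ℚ))
      rw [e, Le_eq]
      exact le_span_of_finrank h1 ((LE_spec X s).1 r)
        (((LE_spec X s).2.2.1 r).2 ((LE_spec X s).2.2.2.trans (by omega)))
    · rw [Lgr_bot X (X.od s k (by omega) ho)]
      exact bot_le

open Classical in
/-- the element defined by a sequence -/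
def el (y : ∀ m, X.H m) : LH X := if h : um K uf y ∈ ⨆ i, LW X i then ⟨_, h⟩ else 0

variable {X}

theorem el_val {y : ∀ m, X.H m} {a : ℚ} (h : ∀ᶠ m in uf, y m ∈ X.le m a) :
    (el X y).1 = um K uf y := by
  rw [el, dif_pos (Lle_le X a (um_mem.2 h))]

theorem el_surj (z : LH X) : ∃ y a, (∀ m, y m ∈ X.le m a) ∧ um K uf y = z.1 := by
  obtain ⟨a, ha⟩ := exists_Lle X z
  obtain ⟨y, hy, e⟩ := exists_rep ha
  exact ⟨y, a, hy, e⟩

end One

section Fam

variable {A B C : WOb} (f : WFam A B)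

theorem hom_F (κ : ℤ) (s : ZMod A.P) (x : ℚ) :
    ∃ t x', ∀ m, ∀ y ∈ A.gr m s x, f.F m κ y ∈ B.gr m t x' := by
  refine ⟨f.t κ, x + f.dg κ, fun m y hy => ?_⟩
  by_cases h : s = f.s κ
  · subst h
    exact f.map m κ x y hy
  · rw [f.off m κ s x y h hy]
    exact zero_mem _

/-- the limit family -/
def fam : Fam (ob A) (ob B) where
  F κ := Lmap (fun m => f.F m κ) (hom_F f κ)
  s := f.s
  t := f.t
  dg := f.dg
  map κ x _ hy := umap_mem (Eventually.of_forall fun m y hy => f.map m κ x y hy) hy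
  off κ c x _ hc hy :=
    Subtype.ext (umap_eq_zero (Eventually.of_forall fun m y hy => f.off m κ c x y hc hy) hy)
  U κ y := by
    obtain ⟨z, a, hz, e⟩ := el_surj y
    apply Subtype.ext
    show umap uf _ (umap uf _ y.1) = umap uf _ (umap uf _ y.1)
    rw [← e]
    exact um_eq.2 ((ev_uf (f.U κ a)).mono fun m h => h _ (hz m))
  fin y := by
    obtain ⟨a, ha⟩ := exists_Lle A y
    obtain ⟨S, hS⟩ := f.ufin a
    refine S.finite_toSet.subset fun κ hκ => by_contra fun h => hκ ?_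
    exact Subtype.ext (umap_eq_zero ((ev_uf hS).mono fun m hm => hm κ h) ha)

theorem tot_val {y : LH A} {x : ∀ m, A.H m} (e : um K uf x = y.1) :
    ((fam f).tot y).1 = um K uf fun m => f.tot m (x m) := by
  obtain ⟨a, ha⟩ := exists_Lle A y
  obtain ⟨S, hS⟩ := f.ufin a
  have e1 : (fam f).tot y = ∑ κ ∈ S, (fam f).F κ y :=
    finsum_eq_sum_of_support_subset _ fun κ hκ => by_contra fun h => hκ
      (Subtype.ext (umap_eq_zero ((ev_uf hS).mono fun m hm => hm κ h) ha))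
  have e2 : ∀ κ, ((fam f).F κ y).1 = um K uf fun m => f.F m κ (x m) := fun κ => by
    show umap uf _ y.1 = _
    rw [← e, umap_um]
  have e3 : (∑ κ ∈ S, (fam f).F κ y).1 = ∑ κ ∈ S, ((fam f).F κ y).1 :=
    map_sum (⨆ i, LW B i).subtype _ S
  rw [e1, e3]
  simp only [e2]
  rw [← map_sum]
  rw [← e] at ha
  refine um_eq.2 (((ev_uf hS).and (um_mem.1 ha)).mono fun m hm => ?_)
  rw [Finset.sum_apply]
  exact (finsum_eq_sum_of_support_subset _ fun κ hκ => by_contra fun h =>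
    hκ (hm.1 κ h _ hm.2)).symm

theorem fam_ex (g : WFam B C) (h : f.Ex g) : Exact (fam f).tot (fam g).tot := fun y => by
  constructor
  · intro h0
    obtain ⟨x, a, hx, e⟩ := el_surj y
    obtain ⟨a', ha⟩ := h.2 a
    have h1 : ∀ᶠ m in uf, g.tot m (x m) = 0 :=
      um_eq_zero.1 ((tot_val g e).symm.trans (congrArg Subtype.val h0))
    have : ∀ m, ∃ z ∈ A.le m a', (∃ z ∈ A.le m a', f.tot m z = x m) → f.tot m z = x m := fun m => by
      by_cases hm : ∃ z ∈ A.le m a', f.tot m z = x m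
      · obtain ⟨z, hz, e⟩ := hm
        exact ⟨z, hz, fun _ => e⟩
      · exact ⟨0, zero_mem _, fun h => (hm h).elim⟩
    choose z hz ez using this
    refine ⟨el A z, Subtype.ext ?_⟩
    rw [tot_val f (el_val (Eventually.of_forall hz)).symm, ← e]
    exact um_eq.2 (((ev_uf ha).and h1).mono fun m hm => ez m (hm.1 _ (hx m) hm.2))
  · rintro ⟨z, rfl⟩
    obtain ⟨x, a, hx, e⟩ := el_surj z
    apply Subtype.ext
    rw [tot_val g (tot_val f e).symm]
    exact um_eq_zero.2 ((ev_uf (h.1 a)).mono fun m hm => hm _ (hx m))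

end Fam

/-- A graded map that is injective on every piece is injective. -/
theorem inj_of_piece {F A B I J : Type*} [Field F] [AddCommGroup A] [Module F A] [AddCommGroup B]
    [Module F B] {W : I → Submodule F A} {W' : J → Submodule F B} (top : ⨆ i, W i = ⊤)
    (ind : iSupIndep W') {τ : I → J} (hτ : Injective τ) {g : A →ₗ[F] B}
    (h : ∀ i, ∀ y ∈ W i, g y ∈ W' (τ i)) (hi : ∀ i, ∀ y ∈ W i, g y = 0 → y = 0) :
    Injective g := by
  refine (injective_iff_map_eq_zero g).2 fun y h0 => ?_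
  obtain ⟨v, hv, rfl⟩ := (Submodule.mem_iSup_iff_exists_finsupp W y).1 (top ▸ trivial)
  rw [Finsupp.sum, map_sum] at h0
  exact Finset.sum_eq_zero fun i hs => hi i _ (hv i)
    ((iSupIndep_iff_finsetSum_eq_zero_imp_eq_zero _).1 (ind.comp hτ) v.support (fun i => g (v i))
      (fun i _ => h i _ (hv i)) h0 i hs)

theorem iso {X Y : WOb} (i : WIso X Y) : Nonempty (Iso (ob X) (ob Y)) := by
  let g : LH X →ₗ[K] LH Y := Lmap i.g fun s x => ⟨i.φ s, x, fun m y hy => i.map m s x y hy⟩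
  have hmap : ∀ s x, (Lgr X s x).map g = Lgr Y (i.φ s) x := fun s x => by
    refine le_antisymm ?_ fun z hz => ?_
    · rintro _ ⟨y, hy, rfl⟩
      exact umap_mem (Eventually.of_forall fun m y hy => i.map m s x y hy) hy
    · obtain ⟨w, hw, e⟩ := exists_rep (S := fun m => Y.gr m (i.φ s) x) hz
      obtain ⟨y, hy, e'⟩ := umap_surj (l := uf) (f := i.g) (S := fun m => X.gr m s x) (z := w)
        ((ev_uf (i.bij s x)).mono fun m hm => hm.surjOn (hw m))
      exact ⟨⟨y, le_iSup (LW X) (s, x) hy⟩, hy, Subtype.ext (e'.trans e)⟩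
  have hi : Injective g := inj_of_piece (sub_top (LW X)) (ob Y).ind
    (τ := fun j : ZMod X.P × ℚ => (i.φ j.1, j.2))
    (fun a b h => Prod.ext (i.φ.injective (congrArg Prod.fst h)) (congrArg (fun p => p.2) h))
    (fun j y hy => (hmap j.1 j.2).le ⟨y, hy, rfl⟩) fun j y hy h0 =>
      Subtype.ext (umap_inj (f := i.g) (S := fun m => X.gr m j.1 j.2)
        ((ev_uf (i.bij j.1 j.2)).mono fun m hm x hx h =>
          hm.injOn hx (zero_mem _) (h.trans (map_zero _).symm)) hy (congrArg Subtype.val h0))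
  have hs : Surjective g := by
    rw [← LinearMap.range_eq_top, eq_top_iff, ← sub_top (LW Y)]
    refine iSup_le fun j => ?_
    obtain ⟨t, x⟩ := j
    obtain ⟨s, rfl⟩ := i.φ.surjective t
    exact (hmap s x).ge.trans LinearMap.map_le_range
  refine ⟨⟨i.φ, LinearEquiv.ofBijective g ⟨hi, hs⟩, hmap, fun y => ?_⟩⟩
  obtain ⟨z, a, hz, e⟩ := el_surj y
  apply Subtype.ext
  show umap uf _ (umap uf _ y.1) = umap uf _ (umap uf _ y.1)
  rw [← e]
  exact um_eq.2 ((ev_uf (i.U a)).mono fun m h => h _ (hz m))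

theorem cc_rfl {a : ℕ} (s : ZMod a) : cc rfl s = s := by
  simp [cc]

/-- LIM -/
theorem lim : LimStmt := ⟨{
  ob := ob
  hP := fun _ => rfl
  pure := fun X d h => by
    have := pure_of (ob X) d
      (fun s k => ⟨Lgr_one X (((h s _).1 ⟨k, rfl⟩).mono fun _ h => h.1),
        LU_inj X (((h s _).1 ⟨k, rfl⟩).mono fun _ h => h.2)⟩)
      fun s x hx => Lgr_bot X ((h s x).2 hx)
    exact ⟨this.1, fun s => (this.2 s).trans (congrArg d (cc_rfl (a := X.P) s).symm)⟩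
  iso := fun _ _ => iso
  el := el
  el_ne := fun X y a h e => by
    have h1 := el_val (ev_uf (h.mono fun _ h => h.1))
    rw [e] at h1
    obtain ⟨m, h2, h3⟩ := ((um_eq_zero.1 h1.symm).and (ev_uf h)).exists
    exact h3.2 h2
  el_congr := fun X y y' h => by
    have e : um K uf y = um K uf y' := um_eq.2 (ev_uf h)
    unfold el
    rw [e]
  el_zero := fun X => Subtype.ext
    ((el_val (a := 0) (Eventually.of_forall fun _ => zero_mem _)).trans (map_zero _))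
  el_add := fun X y y' a h => by
    apply Subtype.ext
    have h1 := el_val (ev_uf (h.mono fun _ h => h.1))
    have h2 := el_val (ev_uf (h.mono fun _ h => h.2))
    have h3 := el_val (y := y + y') (ev_uf (h.mono fun _ h => add_mem h.1 h.2))
    show (el X (y + y')).1 = (el X y).1 + (el X y').1
    rw [h1, h2, h3, map_add]
  fam := fam
  hs := fun _ _ => cc_rfl _
  ht := fun _ _ => cc_rfl _
  hdg := fun _ => rfl
  F_el := fun {A B} f κ y a h => by
    apply Subtype.ext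
    have h1 := el_val (ev_uf h)
    have h2 : um K uf (fun m => f.F m κ (y m)) ∈ ⨆ i, LW B i := by
      have := ((fam f).F κ (el A y)).2
      rwa [show ((fam f).F κ (el A y)).1 = umap uf _ (el A y).1 from rfl, h1, umap_um] at this
    show umap uf _ (el A y).1 = (el B _).1
    rw [h1, umap_um, el, dif_pos h2]
  surj := fun X z => by
    obtain ⟨y, a, hy, e⟩ := el_surj z
    exact ⟨y, a, hy, Subtype.ext ((el_val (Eventually.of_forall hy)).trans e)⟩
  tow := fun {A B} f κ ⟨N, hN⟩ ⟨k, hk⟩ =>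
    tow_of (ob A) (ob B) ((fam f).F κ) (f.s κ) (f.t κ) (f.dg κ) ((fam f).map κ)
      (k := k + Lj B (f.t κ) - Lj A (f.s κ)) (N0 := N)
      (by
        show B.w _ + 2 * (Lj B _ : ℚ) = A.w _ + 2 * (Lj A _ : ℚ) + _ + _
        rw [hk]
        push_cast
        ring)
      fun x hx _ hy h0 => Subtype.ext (umap_inj (ev_uf (hN x hx)) hy (congrArg Subtype.val h0))
  zer := fun {A B} f κ ⟨N, hN⟩ => ⟨N, fun x hx =>
    Subtype.ext (umap_eq_zero (ev_uf (hN x hx)) ((ob A).e_mem (f.s κ) x))⟩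
  ex := fam_ex }⟩

end Crest.Agent.X212.Win22
end
end

-- ▼ part X212/Win22/Cl
section

/-!
The ultralimit at chain level: families of graded complexes and maps whose identities hold only
in bounded degree, eventually in the level `m`, have honest limits.
-/

set_option autoImplicit false
set_option linter.unusedSectionVars false

open Module Function Filter

noncomputable section

namespace Crest.Agent.X212.Win22

open Bor5 (K)
open Cx

instance : CharP K 2 := ZMod.charP 2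

/-- Graded spaces at all levels. -/
structure WG (L : Type) : Type 1 where
  H : ℕ → Type
  [acg : ∀ m, AddCommGroup (H m)]
  [mdl : ∀ m, Module K (H m)]
  [fin : Finite L]
  g : ∀ m, Gd K (H m) (L × ℚ)
  w : L → ℚ
  lat : ∀ m l, (g m).W l ≠ ⊥ → ∃ k : ℕ, l.2 = w l.1 + k
  dim : ∀ l, ∃ B : ℕ, ∀ᶠ m in atTop,
    FiniteDimensional K ((g m).W l) ∧ finrank K ((g m).W l) ≤ B

attribute [instance] WG.acg WG.mdl

namespace WG

variable {L L' L'' : Type} (X : WG L)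

/-- degrees at most `a` -/
def le (m : ℕ) (a : ℚ) : Submodule K (X.H m) := (X.g m).up {l | l.2 ≤ a}

/-- the property holds in every bounded range of degrees, eventually in the level -/
def Loc (p : ∀ m, X.H m → Prop) : Prop := ∀ a, ∀ᶠ m in atTop, ∀ y ∈ X.le m a, p m y

theorem Loc.of_forall {p : ∀ m, X.H m → Prop} (h : ∀ m y, p m y) : X.Loc p :=
  fun _ => Eventually.of_forall fun m y _ => h m y

theorem W_le (m : ℕ) {l : L × ℚ} {a : ℚ} (h : l.2 ≤ a) : (X.g m).W l ≤ X.le m a :=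
  (X.g m).W_le_up (S := {l | l.2 ≤ a}) h

theorem le_mono (m : ℕ) {a b : ℚ} (h : a ≤ b) : X.le m a ≤ X.le m b :=
  fun _ hy => (X.g m).mono' (fun _ hl => hl.trans h) hy

/-- the labels that can occur below `a` -/
def box (a : ℚ) : Set (L × ℚ) := {i | i.2 ≤ a ∧ ∃ k : ℕ, i.2 = X.w i.1 + k}

theorem box_finite (a : ℚ) : (X.box a).Finite := by
  have := X.fin
  refine (Set.finite_iUnion fun s : L =>
    (Set.finite_le_nat ⌈a - X.w s⌉₊).image fun k : ℕ => (s, X.w s + k)).subset ?_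
  rintro ⟨s, x⟩ ⟨h1, k, hk⟩
  obtain rfl : x = X.w s + k := hk
  refine Set.mem_iUnion.2 ⟨s, k, ?_, rfl⟩
  have h2 : (k : ℚ) ≤ a - X.w s := by
    have : X.w s + k ≤ a := h1
    linarith
  exact_mod_cast h2.trans (Nat.le_ceil _)

/-- limit pieces -/
def LW (l : L × ℚ) : Submodule K (UP K uf X.H) := ul uf fun m => (X.g m).W l

/-- limit space -/
abbrev LH : Type := ↥(⨆ l, X.LW l)

/-- limit grading -/
def lg : Gd K X.LH (L × ℚ) :=
  ⟨sub X.LW, sub_indep _ (ul_indep (W := fun m => (X.g m).W)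
    (Eventually.of_forall fun m => (X.g m).ind)), sub_top _⟩

theorem ul_up_le {S : Set (L × ℚ)} {a : ℚ} (h : ∀ l ∈ S, l.2 ≤ a) :
    (ul uf fun m => (X.g m).up S) ≤ ⨆ l ∈ S, X.LW l := by
  refine le_trans (ul_mono (T := fun m => ⨆ l ∈ S ∩ X.box a, (X.g m).W l)
    (Eventually.of_forall fun m => (X.g m).up_le fun l hl => ?_))
    ((ul_iSup_le (fun m => (X.g m).W) ((X.box_finite a).inter_of_right S)).trans
      (biSup_mono fun _ hl => hl.1))
  by_cases h0 : (X.g m).W l = ⊥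
  · rw [h0]
    exact bot_le
  · exact (X.g m).W_le_up (S := S ∩ X.box a) ⟨hl, h l hl, X.lat m l h0⟩

theorem ul_le_le (a : ℚ) : (ul uf fun m => X.le m a) ≤ ⨆ l, X.LW l :=
  (X.ul_up_le (S := {l | l.2 ≤ a}) fun _ h => h).trans (iSup₂_le fun l _ => le_iSup X.LW l)

variable {X}

/-- the sequence `x` represents `y` -/
def Rp (x : ∀ m, X.H m) (y : X.LH) : Prop := um K uf x = y.1

theorem Rp.ext {x x' : ∀ m, X.H m} {y y' : X.LH} (h : Rp x y) (h' : Rp x' y')
    (e : ∀ᶠ m in uf, x m = x' m) : y = y' :=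
  Subtype.ext (h.symm.trans ((um_eq.2 e).trans h'))

theorem Rp.ev {x x' : ∀ m, X.H m} {y : X.LH} (h : Rp x y) (h' : Rp x' y) :
    ∀ᶠ m in uf, x m = x' m := um_eq.1 (h.trans h'.symm)

theorem Rp.congr {x x' : ∀ m, X.H m} {y : X.LH} (h : Rp x y) (e : ∀ᶠ m in uf, x' m = x m) :
    Rp x' y := (um_eq.2 e).trans h

theorem Rp.zero : Rp (X := X) (fun _ => 0) 0 := map_zero (um K uf)

theorem Rp.add {x x' : ∀ m, X.H m} {y y' : X.LH} (h : Rp x y) (h' : Rp x' y') :
    Rp (fun m => x m + x' m) (y + y') :=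
  (map_add (um K uf) x x').trans (congrArg₂ (· + ·) h h')

theorem Rp.sum {α : Type*} (s : Finset α) {x : α → ∀ m, X.H m} {y : α → X.LH}
    (h : ∀ i ∈ s, Rp (x i) (y i)) : Rp (fun m => ∑ i ∈ s, x i m) (∑ i ∈ s, y i) := by
  have e : (fun m => ∑ i ∈ s, x i m) = ∑ i ∈ s, x i := funext fun m => (Finset.sum_apply m s x).symm
  rw [Rp, e, map_sum]
  exact (Finset.sum_congr rfl h).trans (map_sum (⨆ l, X.LW l).subtype y s).symm

theorem Rp.mem_up {x : ∀ m, X.H m} {y : X.LH} (h : Rp x y) {S : Set (L × ℚ)} :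
    y ∈ X.lg.up S ↔ ∀ᶠ m in uf, x m ∈ (X.g m).up S := by
  have key : ∀ T : Set (L × ℚ), ∀ z ∈ X.lg.up T, z.1 ∈ ul uf fun m => (X.g m).up T :=
    fun T z hz => iSup_ul_le (fun m => (X.g m).W) T ((mem_iSup_sub X.LW).1 hz)
  refine ⟨fun hy => um_mem.1 (h ▸ key S y hy), fun hx => ?_⟩
  obtain ⟨a, ha, b, hb, rfl⟩ := X.lg.split S y
  have h1 : b.1 ∈ ul uf fun m => (X.g m).up S := by
    have := sub_mem (h ▸ um_mem.2 hx) (key S a ha)
    simpa using this
  have h2 : b = 0 := Subtype.ext (Submodule.disjoint_def.1 (ul_disjoint (Eventually.of_forall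
    fun m => (X.g m).disj disjoint_compl_right)) _ h1 (key Sᶜ b hb))
  rwa [h2, add_zero]

theorem Rp.mem_W {x : ∀ m, X.H m} {y : X.LH} (h : Rp x y) {l : L × ℚ} :
    y ∈ X.lg.W l ↔ ∀ᶠ m in uf, x m ∈ (X.g m).W l := by
  simpa only [Gd.up_single] using h.mem_up (S := {l})

theorem exists_rp_up {S : Set (L × ℚ)} {y : X.LH} (hy : y ∈ X.lg.up S) :
    ∃ x, Rp x y ∧ ∀ m, x m ∈ (X.g m).up S := by
  obtain ⟨x, hx, e⟩ := exists_rep (iSup_ul_le (fun m => (X.g m).W) S ((mem_iSup_sub X.LW).1 hy))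
  exact ⟨x, e, hx⟩

theorem exists_rp_W {l : L × ℚ} {y : X.LH} (hy : y ∈ X.lg.W l) :
    ∃ x, Rp x y ∧ ∀ m, x m ∈ (X.g m).W l := by
  obtain ⟨x, hx, e⟩ := exists_rep (S := fun m => (X.g m).W l) hy
  exact ⟨x, e, hx⟩

theorem exists_rp (y : X.LH) : ∃ x a, Rp x y ∧ ∀ m, x m ∈ X.le m a := by
  obtain ⟨a, ha⟩ := X.lg.exists_le Prod.snd y
  obtain ⟨x, h, hx⟩ := exists_rp_up ha
  exact ⟨x, a, h, hx⟩

theorem Rp.le {x : ∀ m, X.H m} {y : X.LH} (h : Rp x y) : ∃ a, ∀ᶠ m in uf, x m ∈ X.le m a := by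
  obtain ⟨a, ha⟩ := X.lg.exists_le Prod.snd y
  exact ⟨a, h.mem_up.1 ha⟩

theorem Rp.loc {x : ∀ m, X.H m} {y : X.LH} (h : Rp x y) {p : ∀ m, X.H m → Prop}
    (hp : X.Loc p) : ∀ᶠ m in uf, p m (x m) := by
  obtain ⟨a, ha⟩ := h.le
  exact ((ev_uf (hp a)).and ha).mono fun m hm => hm.1 _ hm.2

theorem exists_of_le {x : ∀ m, X.H m} {a : ℚ} (h : ∀ᶠ m in uf, x m ∈ X.le m a) :
    ∃ y, Rp x y := ⟨⟨_, X.ul_le_le a (um_mem.2 h)⟩, rfl⟩

variable (X)

theorem lg_bot {l : L × ℚ} (h : ∀ᶠ m in atTop, (X.g m).W l = ⊥) : X.lg.W l = ⊥ := by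
  refine eq_bot_iff.2 fun y hy => ?_
  obtain ⟨x, r, hx⟩ := exists_rp_W hy
  exact r.ext Rp.zero ((ev_uf h).mono fun m hm => by simpa [hm] using hx m)

theorem lg_lat (l : L × ℚ) (h : X.lg.W l ≠ ⊥) : ∃ k : ℕ, l.2 = X.w l.1 + k :=
  by_contra fun h' => h (X.lg_bot (Eventually.of_forall fun m =>
    by_contra fun e => h' (X.lat m l e)))

theorem lg_fd (l : L × ℚ) : FiniteDimensional K (X.lg.W l) := by
  obtain ⟨B, hB⟩ := X.dim l
  have : FiniteDimensional K (X.LW l) := (ul_fd (hyperfilter ℕ) (ev_uf hB)).1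
  exact (subEquiv X.LW l).symm.finiteDimensional

theorem lg_le_fd (a : ℚ) : FiniteDimensional K (X.lg.up {l | l.2 ≤ a}) :=
  X.lg.fd_up (X.box_finite a) (fun l hl h => by_contra fun e => h ⟨hl, X.lg_lat l e⟩) X.lg_fd

theorem lg_one {l : L × ℚ} (h : ∀ᶠ m in atTop, finrank K ((X.g m).W l) = 1) :
    finrank K (X.lg.W l) = 1 := by
  have h1 := ul_fd (hyperfilter ℕ) (S := fun m => (X.g m).W l) (C := 1)
    (ev_uf (h.mono fun m hm => ⟨finite_of_finrank_eq_succ hm, hm.le⟩))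
  have h2 : X.LW l ≠ ⊥ := ul_ne_bot (ev_uf (h.mono fun m hm e => by
    rw [e, finrank_bot] at hm
    exact zero_ne_one hm))
  have : FiniteDimensional K (X.LW l) := h1.1
  have h3 : finrank K (X.LW l) ≠ 0 := fun e => h2 (Submodule.finrank_eq_zero.1 e)
  have h4 : finrank K (X.LW l) ≤ 1 := h1.2
  have h5 : finrank K (X.lg.W l) = finrank K (X.LW l) := (subEquiv X.LW l).finrank_eq
  omega

end WG

open WG

/-- Maps at all levels that keep the degree bounded. -/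
structure WM {L L' : Type} (X : WG L) (Y : WG L') where
  φ : ∀ m, X.H m →ₗ[K] Y.H m
  bd : ∀ a, ∃ b, ∀ᶠ m in atTop, ∀ y ∈ X.le m a, φ m y ∈ Y.le m b

namespace WM

variable {L L' L'' : Type} {X : WG L} {Y : WG L'} {Z : WG L''} (f : WM X Y)

/-- the limit map -/
def lim : X.LH →ₗ[K] Y.LH :=
  (umap uf f.φ).restrict fun y hy => by
    obtain ⟨x, a, r, hx⟩ := exists_rp ⟨y, hy⟩
    obtain ⟨b, hb⟩ := f.bd a
    exact Y.ul_le_le b (umap_mem (S := fun m => X.le m a) (ev_uf hb)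
      (r ▸ um_mem.2 (Eventually.of_forall hx) :))

theorem rp {x : ∀ m, X.H m} {y : X.LH} (h : Rp x y) : Rp (fun m => f.φ m (x m)) (f.lim y) :=
  (umap_um f.φ x).symm.trans (congrArg (umap uf f.φ) h)

/-- identity -/
def id (X : WG L) : WM X X :=
  ⟨fun _ => LinearMap.id, fun a => ⟨a, Eventually.of_forall fun _ _ h => h⟩⟩

/-- zero -/
def zero (X : WG L) (Y : WG L') : WM X Y :=
  ⟨fun _ => 0, fun a => ⟨a, Eventually.of_forall fun _ _ _ => zero_mem _⟩⟩

/-- composition -/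
def comp (g : WM Y Z) (f : WM X Y) : WM X Z :=
  ⟨fun m => g.φ m ∘ₗ f.φ m, fun a => by
    obtain ⟨b, hb⟩ := f.bd a
    obtain ⟨c, hc⟩ := g.bd b
    exact ⟨c, (hb.and hc).mono fun m h y hy => h.2 _ (h.1 y hy)⟩⟩

/-- sum -/
def add (f g : WM X Y) : WM X Y :=
  ⟨fun m => f.φ m + g.φ m, fun a => by
    obtain ⟨b, hb⟩ := f.bd a
    obtain ⟨c, hc⟩ := g.bd a
    exact ⟨max b c, (hb.and hc).mono fun m h y hy => add_mem
      (Y.le_mono m (le_max_left _ _) (h.1 y hy)) (Y.le_mono m (le_max_right _ _) (h.2 y hy))⟩⟩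

/-- a family that raises the degree by at most `c` -/
def ofUp (φ : ∀ m, X.H m →ₗ[K] Y.H m) (c : ℚ)
    (h : ∀ a, ∀ᶠ m in atTop, ∀ y ∈ X.le m a, φ m y ∈ Y.le m (a + c)) : WM X Y :=
  ⟨φ, fun a => ⟨a + c, h a⟩⟩

theorem lim_up {l : L × ℚ} {T : Set (L' × ℚ)}
    (h : ∀ᶠ m in atTop, ∀ x ∈ (X.g m).W l, f.φ m x ∈ (Y.g m).up T) :
    ∀ y ∈ X.lg.W l, f.lim y ∈ Y.lg.up T := fun y hy => by
  obtain ⟨x, r, hx⟩ := exists_rp_W hy
  exact (f.rp r).mem_up.2 ((ev_uf h).mono fun m hm => hm _ (hx m))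

theorem lim_W {l : L × ℚ} {k : L' × ℚ}
    (h : ∀ᶠ m in atTop, ∀ x ∈ (X.g m).W l, f.φ m x ∈ (Y.g m).W k) :
    ∀ y ∈ X.lg.W l, f.lim y ∈ Y.lg.W k := fun y hy => by
  obtain ⟨x, r, hx⟩ := exists_rp_W hy
  exact (f.rp r).mem_W.2 ((ev_uf h).mono fun m hm => hm _ (hx m))

theorem lim_zero_up {S : Set (L × ℚ)}
    (h : ∀ᶠ m in atTop, ∀ x ∈ (X.g m).up S, f.φ m x = 0) :
    ∀ y ∈ X.lg.up S, f.lim y = 0 := fun y hy => by
  obtain ⟨x, r, hx⟩ := exists_rp_up hy
  exact (f.rp r).ext Rp.zero ((ev_uf h).mono fun m hm => hm _ (hx m))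

theorem lim_zero_W {l : L × ℚ} (h : ∀ᶠ m in atTop, ∀ x ∈ (X.g m).W l, f.φ m x = 0) :
    ∀ y ∈ X.lg.W l, f.lim y = 0 := fun y hy => by
  obtain ⟨x, r, hx⟩ := exists_rp_W hy
  exact (f.rp r).ext Rp.zero ((ev_uf h).mono fun m hm => hm _ (hx m))

theorem lim_inj_W {l : L × ℚ}
    (h : ∀ᶠ m in atTop, ∀ x ∈ (X.g m).W l, f.φ m x = 0 → x = 0) :
    ∀ y ∈ X.lg.W l, f.lim y = 0 → y = 0 := fun y hy h0 => by
  obtain ⟨x, r, hx⟩ := exists_rp_W hy
  have r' := f.rp r
  rw [h0] at r'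
  exact r.ext Rp.zero (((ev_uf h).and (r'.ev Rp.zero)).mono fun m hm => hm.1 _ (hx m) hm.2)

end WM

/-- Complexes at all levels. -/
structure WC (L : Type) : Type 1 extends WG L where
  d : ∀ m, H m →ₗ[K] H m
  hom : ∀ m l, ∀ y ∈ (g m).W l, d m y ∈ (g m).W (sh l)
  dd : toWG.Loc fun m y => d m (d m y) = 0

namespace WC

variable {L L' L'' : Type} (X : WC L)

/-- the differential as a bounded family -/
def dM : WM X.toWG X.toWG :=
  ⟨X.d, fun a => ⟨a, Eventually.of_forall fun m _ hy => (X.g m).map_up'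
    (fun l hl x hx => X.W_le m (l := sh l) (by
      show l.2 - 1 ≤ a
      linarith) (X.hom m l x hx)) hy⟩⟩

/-- the limit complex -/
def cx : HCx K X.LH (L × ℚ) sh where
  d := X.dM.lim
  dd y := by
    obtain ⟨x, -, r, -⟩ := exists_rp y
    exact (X.dM.rp (X.dM.rp r)).ext Rp.zero (r.loc X.dd)
  g := X.lg
  inj := sh_inj
  hom l := X.dM.lim_W (Eventually.of_forall fun m => X.hom m l)

/-- the homology -/
abbrev Hm : Type := X.cx.H

/-- its graded pieces -/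
def gr (s : L) (x : ℚ) : Submodule K X.Hm := X.cx.hg.W (s, x)

theorem gr_ind : iSupIndep fun i : L × ℚ => X.gr i.1 i.2 := X.cx.hg.ind

theorem gr_top : ⨆ i : L × ℚ, X.gr i.1 i.2 = ⊤ := X.cx.hg.top

theorem gr_fd (s : L) (x : ℚ) : FiniteDimensional K (X.gr s x) :=
  have : FiniteDimensional K (X.cx.g.W (s, x)) := X.lg_fd (s, x)
  X.cx.fd_img

theorem gr_lat (s : L) (x : ℚ) (h : X.gr s x ≠ ⊥) : ∃ k : ℕ, x = X.w s + k :=
  X.lg_lat (s, x) fun e => h (HCx.hg_bot e)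

theorem gr_bot {s : L} {x : ℚ} (h : ∀ᶠ m in atTop, (X.g m).W (s, x) = ⊥) : X.gr s x = ⊥ :=
  HCx.hg_bot (X.lg_bot h)

theorem above {s : L} {x : ℚ} (h : ∀ᶠ m in atTop, (X.g m).W (s, x + 1) = ⊥) :
    ∀ k, sh k = (s, x) → X.cx.g.W k = ⊥ := fun k hk => by
  obtain rfl : k = (s, x + 1) := sh_inj (hk.trans (by simp [sh]))
  exact X.lg_bot h

theorem gr_one {s : L} {x : ℚ} (h : ∀ᶠ m in atTop, finrank K ((X.g m).W (s, x)) = 1)
    (h1 : ∀ᶠ m in atTop, (X.g m).W (s, x + 1) = ⊥)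
    (h2 : ∀ᶠ m in atTop, (X.g m).W (s, x - 1) = ⊥) : finrank K (X.gr s x) = 1 :=
  (HCx.finrank_hg (X.above h1) (X.lg_bot h2)).trans (X.lg_one h)

end WC

/-- Chain maps at all levels. -/
structure WCh {L L' : Type} (X : WC L) (Y : WC L') extends WM X.toWG Y.toWG where
  ch : X.Loc fun m y => Y.d m (φ m y) = φ m (X.d m y)

namespace WCh

variable {L L' L'' : Type} {X : WC L} {Y : WC L'} {Z : WC L''} (f : WCh X Y)

theorem isCh : IsCh X.cx.toCx Y.cx.toCx f.lim := fun y => by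
  obtain ⟨x, -, r, -⟩ := exists_rp y
  exact (Y.dM.rp (f.rp r)).ext (f.rp (X.dM.rp r)) (r.loc f.ch)

/-- the map on homology -/
def hm : X.Hm →ₗ[K] Y.Hm := X.cx.map Y.cx.toCx f.lim f.isCh

/-- identity -/
def id (X : WC L) : WCh X X := ⟨WM.id _, Loc.of_forall _ fun _ _ => rfl⟩

/-- composition -/
def comp (g : WCh Y Z) (f : WCh X Y) : WCh X Z :=
  ⟨g.toWM.comp f.toWM, fun a => by
    obtain ⟨b, hb⟩ := f.bd a
    exact (hb.and ((g.ch b).and (f.ch a))).mono fun m h y hy =>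
      (h.2.1 _ (h.1 y hy)).trans (congrArg (g.φ m) (h.2.2 y hy))⟩

/-- sum -/
def add (f g : WCh X Y) : WCh X Y :=
  ⟨f.toWM.add g.toWM, fun a => ((f.ch a).and (g.ch a)).mono fun m h y hy =>
    (map_add _ _ _).trans (congrArg₂ (· + ·) (h.1 y hy) (h.2 y hy))⟩

theorem hm_congr {φ : X.LH →ₗ[K] Y.LH} (h : IsCh X.cx.toCx Y.cx.toCx φ) (e : f.lim = φ) :
    f.hm = X.cx.map Y.cx.toCx φ h := by
  subst e
  rfl

theorem hm_id (X : WC L) : (id X).hm = LinearMap.id :=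
  ((id X).hm_congr (IsCh.id _) (LinearMap.ext fun y => by
    obtain ⟨x, -, r, -⟩ := exists_rp y
    exact ((id X).rp r).ext r (Eventually.of_forall fun _ => rfl))).trans (map_id _ _)

theorem hm_comp (g : WCh Y Z) (f : WCh X Y) : (g.comp f).hm = g.hm ∘ₗ f.hm :=
  ((g.comp f).hm_congr (g.isCh.comp f.isCh) (LinearMap.ext fun y => by
    obtain ⟨x, -, r, -⟩ := exists_rp y
    exact ((g.comp f).rp r).ext (g.rp (f.rp r)) (Eventually.of_forall fun _ => rfl))).trans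
      (map_comp _ _ _)

theorem hm_add (f g : WCh X Y) : (f.add g).hm = f.hm + g.hm :=
  ((f.add g).hm_congr (f.isCh.add g.isCh) (LinearMap.ext fun y => by
    obtain ⟨x, -, r, -⟩ := exists_rp y
    exact ((f.add g).rp r).ext ((f.rp r).add (g.rp r)) (Eventually.of_forall fun _ => rfl))).trans
      (map_add' _ _ _)

/-- homotopy invariance -/
theorem hm_eq (f g : WCh X Y) (k : WM X.toWG Y.toWG)
    (h : X.Loc fun m y => Y.d m (k.φ m y) + k.φ m (X.d m y) = f.φ m y + g.φ m y) :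
    f.hm = g.hm :=
  map_eq_of_htpy2 f.isCh g.isCh k.lim fun y => by
    obtain ⟨x, -, r, -⟩ := exists_rp y
    exact ((Y.dM.rp (k.rp r)).add (k.rp (X.dM.rp r))).ext ((f.rp r).add (g.rp r)) (r.loc h)

theorem hm_eq' (f g : WCh X Y) (h : X.Loc fun m y => f.φ m y = g.φ m y) : f.hm = g.hm :=
  f.hm_congr g.isCh (LinearMap.ext fun y => by
    obtain ⟨x, -, r, -⟩ := exists_rp y
    exact (f.rp r).ext (g.rp r) (r.loc h))

theorem hm_eq_zero (k : WM X.toWG Y.toWG)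
    (h : X.Loc fun m y => Y.d m (k.φ m y) + k.φ m (X.d m y) = f.φ m y) : f.hm = 0 := by
  refine hext fun y hy => (Y.cx.cls_eq_zero (f.isCh.cyc hy)).2 ⟨k.lim y, ?_⟩
  obtain ⟨x, -, r, -⟩ := exists_rp y
  have e := ((Y.dM.rp (k.rp r)).add (k.rp (X.dM.rp r))).ext (f.rp r) (r.loc h)
  have hy' : X.dM.lim y = 0 := hy
  rwa [hy', map_zero, add_zero] at e

theorem hm_mem {s : L} {x : ℚ} {t : L'} {x' : ℚ}
    (h : ∀ᶠ m in atTop, ∀ y ∈ (X.g m).W (s, x), f.φ m y ∈ (Y.g m).W (t, x')) :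
    ∀ c ∈ X.gr s x, f.hm c ∈ Y.gr t x' := fun _ hc => HCx.map_hg_W f.isCh (f.lim_W h) hc

theorem hm_zero {s : L} {x : ℚ} (h : ∀ᶠ m in atTop, ∀ y ∈ (X.g m).W (s, x), f.φ m y = 0) :
    ∀ c ∈ X.gr s x, f.hm c = 0 := fun _ hc => HCx.map_hg_zero f.isCh (f.lim_zero_W h) hc

theorem hm_inj {s : L} {x : ℚ} {t : L'} {x' : ℚ}
    (h : ∀ᶠ m in atTop, ∀ y ∈ (X.g m).W (s, x), f.φ m y ∈ (Y.g m).W (t, x'))
    (hi : ∀ᶠ m in atTop, ∀ y ∈ (X.g m).W (s, x), f.φ m y = 0 → y = 0)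
    (h1 : ∀ᶠ m in atTop, (Y.g m).W (t, x' + 1) = ⊥) :
    ∀ c ∈ X.gr s x, f.hm c = 0 → c = 0 := fun _ hc h0 =>
  HCx.map_hg_inj f.isCh (f.lim_W h) (f.lim_inj_W hi) (Y.above h1) hc h0

/-- totals -/
theorem hm_finsum {α : Type*} (F : α → WCh X Y) (t : WCh X Y)
    (h : ∀ a, ∃ S : Finset α, ∀ᶠ m in atTop, ∀ y ∈ X.le m a,
      (∀ κ ∉ S, (F κ).φ m y = 0) ∧ t.φ m y = ∑ κ ∈ S, (F κ).φ m y) (c : X.Hm) :
    (support fun κ => (F κ).hm c).Finite ∧ t.hm c = ∑ᶠ κ, (F κ).hm c := by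
  obtain ⟨y, hy, rfl⟩ := X.cx.exists_cls c
  obtain ⟨x, a, r, hx⟩ := exists_rp y
  obtain ⟨S, hS⟩ := h a
  have h0 : support (fun κ => (F κ).hm (X.cx.cls y hy)) ⊆ S := fun κ hκ => by_contra fun hn =>
    hκ ((Y.cx.cls_congr _ (map_zero _) (((F κ).rp r).ext Rp.zero
      ((ev_uf hS).mono fun m hm => (hm _ (hx m)).1 κ hn))).trans (Y.cx.cls_zero _))
  have e : t.lim y = ∑ κ ∈ S, (F κ).lim y :=
    (t.rp r).ext (Rp.sum S fun κ _ => (F κ).rp r) ((ev_uf hS).mono fun m hm => (hm _ (hx m)).2)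
  refine ⟨S.finite_toSet.subset h0, ?_⟩
  rw [finsum_eq_sum_of_support_subset _ h0]
  exact (Y.cx.cls_congr _ (e ▸ t.isCh.cyc hy) e).trans
    (Y.cx.cls_sum S (fun κ => (F κ).lim y) (fun κ => (F κ).isCh.cyc hy) _)

end WCh

/-- The three sides and the three null-homotopies of a triangle. -/
structure WTri {L L' L'' : Type} (A : WC L) (B : WC L') (C : WC L'') where
  f : WCh A B
  g : WCh B C
  h : WCh C A
  hA : WM A.toWG C.toWG
  hB : WM B.toWG A.toWG
  hC : WM C.toWG B.toWG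
  eA : A.Loc fun m x => C.d m (hA.φ m x) + hA.φ m (A.d m x) = g.φ m (f.φ m x)
  eB : B.Loc fun m x => A.d m (hB.φ m x) + hB.φ m (B.d m x) = h.φ m (g.φ m x)
  eC : C.Loc fun m x => B.d m (hC.φ m x) + hC.φ m (C.d m x) = f.φ m (h.φ m x)

namespace WTri

variable {L L' L'' : Type} {A : WC L} {B : WC L'} {C : WC L''} (T : WTri A B C)

/-- rotation -/
def rot : WTri B C A := ⟨T.g, T.h, T.f, T.hB, T.hC, T.hA, T.eB, T.eC, T.eA⟩

/-- the limit triangle -/
def tri : Tri A.cx.toCx B.cx.toCx C.cx.toCx where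
  f := T.f.lim
  g := T.g.lim
  h := T.h.lim
  hA := T.hA.lim
  hB := T.hB.lim
  hC := T.hC.lim
  cf := T.f.isCh
  cg := T.g.isCh
  ch := T.h.isCh
  eA y := by
    obtain ⟨x, -, r, -⟩ := exists_rp y
    exact ((C.dM.rp (T.hA.rp r)).add (T.hA.rp (A.dM.rp r))).ext (T.g.rp (T.f.rp r)) (r.loc T.eA)
  eB y := by
    obtain ⟨x, -, r, -⟩ := exists_rp y
    exact ((A.dM.rp (T.hB.rp r)).add (T.hB.rp (B.dM.rp r))).ext (T.h.rp (T.g.rp r)) (r.loc T.eB)
  eC y := by
    obtain ⟨x, -, r, -⟩ := exists_rp y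
    exact ((B.dM.rp (T.hC.rp r)).add (T.hC.rp (C.dM.rp r))).ext (T.f.rp (T.h.rp r)) (r.loc T.eC)

/-- The pentagon identity at the vertex `A`. -/
structure Pent where
  G : WM A.toWG A.toWG
  u : WCh A A
  ν : WM A.toWG A.toWG
  eq : A.Loc fun m x => A.d m (G.φ m x) + G.φ m (A.d m x) =
    T.h.φ m (T.hA.φ m x) + T.hB.φ m (T.f.φ m x) + (u.φ m x + ν.φ m x)
  du : ∀ l, ∀ᶠ m in atTop, ∀ x ∈ (A.g m).W l, u.φ m x ∈ (A.g m).up {k | k.2 = l.2}
  dν : ∀ l, ∀ᶠ m in atTop, ∀ x ∈ (A.g m).W l, ν.φ m x ∈ (A.g m).up {k | k.2 < l.2}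
  inj : Injective u.hm

variable {T} in
theorem Pent.bij (p : T.Pent) : Bijective T.tri.Ψ :=
  HCx.Uni.bij (A := A.cx) (deg := Prod.snd)
    { G := p.G.lim
      u := p.u.lim
      ν := p.ν.lim
      cu := p.u.isCh
      eq := fun y => by
        obtain ⟨x, -, r, -⟩ := exists_rp y
        exact ((A.dM.rp (p.G.rp r)).add (p.G.rp (A.dM.rp r))).ext
          (((T.h.rp (T.hA.rp r)).add (T.hB.rp (T.f.rp r))).add ((p.u.rp r).add (p.ν.rp r)))
          (r.loc p.eq)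
      du := fun l => p.u.lim_up (p.du l)
      dν := fun l => p.ν.lim_up (p.dν l)
      inj := p.inj } A.lg_le_fd T.tri.cψ

/-- Exactness at `B` from the pentagons at `A` and at `B`. -/
theorem exact (p : T.Pent) (q : T.rot.Pent) : Exact T.f.hm T.g.hm :=
  LinearMap.exact_iff.2 (T.tri.exact p.bij.2 q.bij.1)

end WTri

end Crest.Agent.X212.Win22
end
end

-- ▼ part X212/Win22/Ob

/-!
From honest graded `F₂[U]`-modules to `Bor5.Ob`; complexes given by generators.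
-/

set_option autoImplicit false
set_option linter.unusedSectionVars false

open Module Function Filter

noncomputable section

namespace Crest.Agent.X212.Win22

open Bor5

/-- A graded module that is a single tower in each class in high degrees. -/
structure Hf (L : Type) : Type 1 where
  H : Type
  [acg : AddCommGroup H]
  [mdl : Module K H]
  gr : L → ℚ → Submodule K H
  ind : iSupIndep fun i : L × ℚ => gr i.1 i.2
  top : ⨆ i : L × ℚ, gr i.1 i.2 = ⊤
  fd : ∀ s x, FiniteDimensional K (gr s x)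
  U : H →ₗ[K] H
  U_mem : ∀ s x y, y ∈ gr s x → U y ∈ gr s (x - 2)
  w : L → ℚ
  lat : ∀ s x, gr s x ≠ ⊥ → ∃ k : ℕ, x = w s + k
  N : ℕ
  ev : ∀ s (k : ℕ), N ≤ k → Even k → finrank K (gr s (w s + k)) = 1 ∧
    ∀ y ∈ gr s (w s + k + 2), U y = 0 → y = 0
  od : ∀ s (k : ℕ), N ≤ k → Odd k → gr s (w s + k) = ⊥

attribute [instance] Hf.acg Hf.mdl

namespace Hf

variable {L : Type} (X : Hf L)

theorem gr_lat {s : L} {x : ℚ} (h : ¬∃ k : ℕ, x = X.w s + k) : X.gr s x = ⊥ :=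
  by_contra fun e => h (X.lat s x e)

theorem tower (s : L) : ∃ (E : ℤ → X.H) (j0 : ℤ),
    (∀ j : ℤ, E j ∈ X.gr s (X.w s + 2 * j)) ∧ (∀ j, X.U (E (j + 1)) = E j) ∧
      (∀ j, E j ≠ 0 ↔ j0 ≤ j) ∧ j0 ≤ X.N := by
  have key : ∀ j : ℤ, (X.N : ℤ) ≤ j → ∃ k : ℕ, X.N ≤ k ∧ Even k ∧ (2 * j : ℚ) = k := fun j hj => by
    obtain ⟨r, rfl⟩ := Int.eq_ofNat_of_zero_le (le_trans (Int.natCast_nonneg _) hj)
    exact ⟨2 * r, by omega, even_two_mul r, by push_cast; rfl⟩
  refine exists_tower X.U (fun j => X.gr s (X.w s + 2 * j)) X.N (fun j y hy => ?_)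
    (fun j hj => ?_) (fun j hj => ?_) fun j hj => X.gr_lat ?_
  · have := X.U_mem s _ y hy
    rwa [show X.w s + 2 * ((j + 1 : ℤ) : ℚ) - 2 = X.w s + 2 * j by push_cast; ring] at this
  · obtain ⟨k, h1, h2, e⟩ := key j hj
    rw [e]
    exact (X.ev s k h1 h2).1
  · obtain ⟨k, h1, h2, e⟩ := key j hj
    rw [show X.w s + 2 * ((j + 1 : ℤ) : ℚ) = X.w s + k + 2 by rw [← e]; push_cast; ring]
    exact (X.ev s k h1 h2).2
  · rintro ⟨k, hk⟩
    have h1 : (j : ℚ) < 0 := by exact_mod_cast hj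
    have h2 : (0 : ℚ) ≤ k := Nat.cast_nonneg k
    linarith

/-- tower elements by index -/
def E (s : L) : ℤ → X.H := (X.tower s).choose

/-- index of the bottom -/
def j0 (s : L) : ℤ := (X.tower s).choose_spec.choose

theorem E_spec (s : L) :
    (∀ j : ℤ, X.E s j ∈ X.gr s (X.w s + 2 * j)) ∧ (∀ j, X.U (X.E s (j + 1)) = X.E s j) ∧
      (∀ j, X.E s j ≠ 0 ↔ X.j0 s ≤ j) ∧ X.j0 s ≤ X.N := (X.tower s).choose_spec.choose_spec

open Classical in
/-- tower elements by degree -/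
def e (s : L) (x : ℚ) : X.H :=
  if h : ∃ j : ℤ, x = X.w s + 2 * j then X.E s h.choose else 0

theorem e_eq (s : L) (j : ℤ) : X.e s (X.w s + 2 * j) = X.E s j := by
  have h : ∃ i : ℤ, X.w s + 2 * j = X.w s + 2 * i := ⟨j, rfl⟩
  have e : (j : ℚ) = h.choose := by linarith [h.choose_spec]
  rw [Hf.e, dif_pos h, ← Int.cast_injective e]

theorem e_not {s : L} {x : ℚ} (h : ¬∃ j : ℤ, x = X.w s + 2 * j) : X.e s x = 0 := dif_neg h

/-- the bottoms -/
def d (s : L) : ℚ := X.w s + 2 * X.j0 s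

theorem e_mem (s : L) (x : ℚ) : X.e s x ∈ X.gr s x := by
  by_cases h : ∃ j : ℤ, x = X.w s + 2 * j
  · obtain ⟨j, rfl⟩ := h
    rw [e_eq]
    exact (X.E_spec s).1 j
  · rw [X.e_not h]
    exact zero_mem _

theorem e_ne (s : L) (x : ℚ) : X.e s x ≠ 0 ↔ ∃ k : ℕ, x = X.d s + 2 * k := by
  constructor
  · intro h0
    obtain ⟨j, rfl⟩ : ∃ j : ℤ, x = X.w s + 2 * j := by_contra fun h => h0 (X.e_not h)
    rw [e_eq, (X.E_spec s).2.2.1] at h0
    obtain ⟨k, rfl⟩ := Int.le.dest h0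
    exact ⟨k, by rw [d]; push_cast; ring⟩
  · rintro ⟨k, rfl⟩
    rw [show X.d s + 2 * k = X.w s + 2 * ((X.j0 s + k : ℤ) : ℚ) by rw [d]; push_cast; ring,
      e_eq, (X.E_spec s).2.2.1]
    omega

theorem U_e (s : L) (x : ℚ) : X.U (X.e s x) = X.e s (x - 2) := by
  by_cases h : ∃ j : ℤ, x = X.w s + 2 * j
  · obtain ⟨j, rfl⟩ := h
    rw [show X.w s + 2 * (j : ℚ) - 2 = X.w s + 2 * ((j - 1 : ℤ) : ℚ) by push_cast; ring,
      e_eq, e_eq, ← (X.E_spec s).2.1 (j - 1), sub_add_cancel]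
  · rw [X.e_not h, map_zero, e_not]
    rintro ⟨j, hj⟩
    exact h ⟨j + 1, by push_cast; linarith⟩

theorem fin [Finite L] : {i : L × ℚ | ¬X.gr i.1 i.2 ≤ K ∙ X.e i.1 i.2}.Finite := by
  refine (Set.finite_iUnion fun s : L =>
    (Set.finite_lt_nat (2 * X.N)).image fun k : ℕ => (s, X.w s + k)).subset ?_
  rintro ⟨s, x⟩ h
  obtain ⟨k, rfl⟩ : ∃ k : ℕ, x = X.w s + k := by_contra fun e => h (by
    rw [X.gr_lat e]; exact bot_le)
  refine Set.mem_iUnion.2 ⟨s, k, by_contra fun hk => h ?_, rfl⟩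
  have hk' : 2 * X.N ≤ k := not_lt.1 hk
  rcases Nat.even_or_odd k with he | ho
  · have h1 := (X.ev s k (by omega) he).1
    obtain ⟨r, rfl⟩ := he
    have e : X.w s + ((r + r : ℕ) : ℚ) = X.w s + 2 * ((r : ℤ) : ℚ) := by push_cast; ring
    rw [e] at h1
    show X.gr s (X.w s + ((r + r : ℕ) : ℚ)) ≤ K ∙ X.e s (X.w s + ((r + r : ℕ) : ℚ))
    rw [e, e_eq]
    exact le_span_of_finrank h1 ((X.E_spec s).1 r)
      (((X.E_spec s).2.2.1 r).2 ((X.E_spec s).2.2.2.trans (by omega)))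
  · rw [X.od s k (by omega) ho]
    exact bot_le

/-- The object of `Bor5` with the same module; the classes are labelled by `φ`. -/
@[reducible] def ob {P : ℕ} (hP : 0 < P) (φ : ZMod P ≃ L) : Ob where
  H := X.H
  P := P
  pos := hP
  gr s := X.gr (φ s)
  ind := X.ind.comp (f := fun i : ZMod P × ℚ => (φ i.1, i.2)) fun _ _ h =>
    Prod.ext (φ.injective (congrArg Prod.fst h)) (congrArg (fun p => p.2) h)
  top := by
    rw [← X.top]
    exact (φ.prodCongr (Equiv.refl ℚ)).iSup_comp (g := fun i : L × ℚ => X.gr i.1 i.2)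
  fd s := X.fd (φ s)
  U := X.U
  U_mem s := X.U_mem (φ s)
  d s := X.d (φ s)
  e s := X.e (φ s)
  e_mem s := X.e_mem (φ s)
  e_ne s := X.e_ne (φ s)
  U_e s := X.U_e (φ s)
  fin := by
    have : NeZero P := ⟨hP.ne'⟩
    have : Finite L := Finite.of_equiv _ φ
    exact X.fin.preimage (f := fun i : ZMod P × ℚ => (φ i.1, i.2)) fun _ _ _ _ h =>
      Prod.ext (φ.injective (congrArg Prod.fst h)) (congrArg (fun p => p.2) h)

variable {L' : Type} {Y : Hf L'} {P P' : ℕ} (hP : 0 < P) (φ : ZMod P ≃ L) (hP' : 0 < P')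
  (φ' : ZMod P' ≃ L')

theorem ob_cg (s : ZMod P) : ∃ k : ℤ, (X.ob hP φ).d s = X.w (φ s) + 2 * k := ⟨_, rfl⟩

/-- (T): a homogeneous map that is injective in high degrees matches the towers -/
theorem ob_tow (f : X.H →ₗ[K] Y.H) (s : ZMod P) (t : ZMod P') (δ : ℚ)
    (hm : ∀ x, ∀ y ∈ X.gr (φ s) x, f y ∈ Y.gr (φ' t) (x + δ))
    (hk : ∃ k : ℤ, Y.w (φ' t) = X.w (φ s) + δ + 2 * k)
    (hi : ∃ N, ∀ x, N ≤ x → ∀ y ∈ X.gr (φ s) x, f y = 0 → y = 0) :
    ∃ N, ∀ x, N ≤ x → f ((X.ob hP φ).e s x) = (Y.ob hP' φ').e t (x + δ) := by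
  obtain ⟨k, hk⟩ := hk
  obtain ⟨N, hN⟩ := hi
  refine tow_of (X.ob hP φ) (Y.ob hP' φ') f s t δ hm (k := k + Y.j0 (φ' t) - X.j0 (φ s)) ?_ hN
  show Y.w _ + 2 * (Y.j0 _ : ℚ) = X.w _ + 2 * (X.j0 _ : ℚ) + _ + _
  rw [hk]
  push_cast
  ring

/-- the parity hypothesis of `ob_tow` follows from injectivity -/
theorem par_of_inj (f : X.H →ₗ[K] Y.H) (s : L) (t : L') (δ : ℚ)
    (hm : ∀ x, ∀ y ∈ X.gr s x, f y ∈ Y.gr t (x + δ))
    (hi : ∃ N, ∀ x, N ≤ x → ∀ y ∈ X.gr s x, f y = 0 → y = 0) :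
    ∃ k : ℤ, Y.w t = X.w s + δ + 2 * k := by
  obtain ⟨N, hN⟩ := hi
  obtain ⟨n, hn⟩ := exists_nat_ge (max (N - X.d s) (Y.w t + Y.N - δ - X.d s))
  rw [max_le_iff] at hn
  have h0 : (0 : ℚ) ≤ n := Nat.cast_nonneg n
  have h1 : f (X.e s (X.d s + 2 * n)) ≠ 0 := fun e =>
    (X.e_ne s _).2 ⟨n, rfl⟩ (hN _ (by linarith [hn.1]) _ (X.e_mem s _) e)
  have h2 : Y.gr t (X.d s + 2 * n + δ) ≠ ⊥ :=
    (Submodule.ne_bot_iff _).2 ⟨_, hm _ _ (X.e_mem s _), h1⟩
  obtain ⟨k, hk⟩ := Y.lat t _ h2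
  have hk' : Y.N ≤ k := by
    have : (Y.N : ℚ) ≤ k := by linarith [hn.2]
    exact_mod_cast this
  rcases Nat.even_or_odd k with ⟨r, rfl⟩ | ho
  · refine ⟨X.j0 s + n - r, ?_⟩
    rw [d] at hk
    push_cast at hk ⊢
    linarith
  · exact (h2 (hk ▸ Y.od t k hk' ho)).elim

/-- a graded isomorphism -/
def obIso (g : X.H ≃ₗ[K] Y.H) (τ : L ≃ L') (hm : ∀ s x, ∀ y ∈ X.gr s x, g y ∈ Y.gr (τ s) x)
    (hU : ∀ y, g (X.U y) = Y.U (g y)) : Iso (X.ob hP φ) (Y.ob hP' φ') where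
  φ := φ.trans (τ.trans φ'.symm)
  g := g
  map s x := by
    show (X.gr (φ s) x).map (g : X.H →ₗ[K] Y.H) = Y.gr (φ' (φ'.symm (τ (φ s)))) x
    rw [φ'.apply_symm_apply]
    refine le_antisymm ?_ fun z hz => ?_
    · rintro _ ⟨y, hy, rfl⟩
      exact hm _ _ y hy
    · exact map_piece (W := fun j : L × ℚ => X.gr j.1 j.2) (W' := fun j : L' × ℚ => Y.gr j.1 j.2)
        X.top Y.ind (τ := fun j => (τ j.1, j.2))
        (fun a b h => Prod.ext (τ.injective (congrArg Prod.fst h)) (congrArg (fun p => p.2) h))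
        (g := (g : X.H →ₗ[K] Y.H)) g.surjective (fun j y hy => hm j.1 j.2 y hy) (φ s, x) hz
  U := hU

end Hf

/-- The module of a complex with a `U`-map that has only tower generators in high degrees. -/
def WC.hf {L : Type} (X : WC L) (U : WCh X X)
    (hU : ∀ s x, ∀ᶠ m in atTop, ∀ y ∈ (X.g m).W (s, x), U.φ m y ∈ (X.g m).W (s, x - 2)) (N : ℕ)
    (ev : ∀ s (k : ℕ), N ≤ k → Even k → ∀ᶠ m in atTop,
      finrank K ((X.g m).W (s, X.w s + k)) = 1 ∧
        ∀ y ∈ (X.g m).W (s, X.w s + k + 2), U.φ m y = 0 → y = 0)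
    (od : ∀ s (k : ℕ), N ≤ k → Odd k → ∀ᶠ m in atTop, (X.g m).W (s, X.w s + k) = ⊥) : Hf L where
  H := X.Hm
  gr := X.gr
  ind := X.gr_ind
  top := X.gr_top
  fd := X.gr_fd
  U := U.hm
  U_mem s x := U.hm_mem (hU s x)
  w := X.w
  lat := X.gr_lat
  N := N + 1
  ev s k hk he := by
    have h1 : ∀ᶠ m in atTop, (X.g m).W (s, X.w s + k + 1) = ⊥ := by
      have := od s (k + 1) (by omega) he.add_one
      rwa [Nat.cast_add_one, ← add_assoc] at this
    refine ⟨X.gr_one ((ev s k (by omega) he).mono fun _ h => h.1) h1 ?_,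
      U.hm_inj (hU s _) ((ev s k (by omega) he).mono fun _ h => h.2) ?_⟩
    · obtain ⟨j, rfl⟩ : ∃ j, k = j + 1 := ⟨k - 1, by omega⟩
      have := od s j (by omega) (Nat.not_even_iff_odd.1 (Nat.even_add_one.1 he))
      rwa [Nat.cast_add_one, ← add_assoc, add_sub_cancel_right]
    · rwa [show X.w s + k + 2 - 2 + 1 = X.w s + k + 1 by ring]
  od s k hk ho := X.gr_bot (od s k (by omega) ho)

section Gen

variable {ι κ Λ Λ' : Type} [Fintype ι] [DecidableEq ι]

theorem pc_le_iSup (lab : ι → Λ) (S : Set Λ) :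
    pc K (lab ⁻¹' S) ≤ ⨆ l ∈ S, pc K (lab ⁻¹' {l}) := fun x hx => by
  rw [pi_eq_sum_univ' x]
  refine sum_mem fun i _ => ?_
  by_cases hi : lab i ∈ S
  · refine Submodule.smul_mem _ _ (le_iSup₂_of_le (f := fun l (_ : l ∈ S) => pc K (lab ⁻¹' {l}))
      (lab i) hi le_rfl fun j hj => Pi.single_eq_of_ne (fun e => hj ?_) _)
    rw [e]
    rfl
  · rw [hx i hi, zero_smul]
    exact zero_mem _

/-- The grading of the space with basis `ι` by labels of the generators. -/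
def gdOf (lab : ι → Λ) : Gd K (ι → K) Λ where
  W l := pc K (lab ⁻¹' {l})
  ind l := by
    refine Disjoint.mono_right (c := pc K (lab ⁻¹' {l})ᶜ)
      (iSup₂_le fun j hj => pc_mono fun i (h : lab i = j) (h' : lab i = l) => hj (h ▸ h')) ?_
    rw [Submodule.disjoint_def]
    intro x h1 h2
    rw [← pr_eq_self h1]
    exact pr_eq_zero disjoint_compl_right h2
  top := by
    refine eq_top_iff.2 ?_
    have := pc_le_iSup lab Set.univ
    rw [Set.preimage_univ, pc_univ] at this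
    simpa using this

theorem gdOf_W (lab : ι → Λ) (l : Λ) : (gdOf lab).W l = pc K (lab ⁻¹' {l}) := rfl

theorem gdOf_up (lab : ι → Λ) (S : Set Λ) : (gdOf lab).up S = pc K (lab ⁻¹' S) :=
  le_antisymm ((gdOf lab).up_le fun _ hl => pc_mono
    (Set.preimage_mono (Set.singleton_subset_iff.2 hl))) (pc_le_iSup lab S)

/-- identities on a window are checked on generators -/
theorem eq_on_pc {M : Type*} [AddCommGroup M] [Module K M] {φ ψ : (ι → K) →ₗ[K] M} {S : Set ι}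
    (h : ∀ i ∈ S, φ (Pi.single i 1) = ψ (Pi.single i 1)) {x : ι → K} (hx : x ∈ pc K S) :
    φ x = ψ x := by
  rw [pi_eq_sum_univ' x, map_sum, map_sum]
  refine Finset.sum_congr rfl fun i _ => ?_
  by_cases hi : i ∈ S
  · rw [map_smul, map_smul, h i hi]
  · rw [hx i hi, zero_smul, map_zero, map_zero]

/-- coordinates on a piece -/
def pcEquiv (S : Set ι) : pc K S ≃ₗ[K] (S → K) :=
  LinearEquiv.ofBijective (LinearMap.funLeft K K Subtype.val ∘ₗ (pc K S).subtype)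
    ⟨(injective_iff_map_eq_zero _).2 fun x h => Subtype.ext (funext fun i => by
      by_cases hi : i ∈ S
      · exact congrFun h ⟨i, hi⟩
      · exact x.2 i hi), fun y => by
      classical
      exact ⟨⟨fun i => if h : i ∈ S then y ⟨i, h⟩ else 0, fun i hi => dif_neg hi⟩,
        funext fun i => dif_pos i.2⟩⟩

theorem finrank_pc (S : Set ι) : finrank K (pc K S) = S.ncard := by
  classical
  rw [(pcEquiv S).finrank_eq, finrank_fintype_fun_eq_card, ← Nat.card_eq_fintype_card,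
    Nat.card_coe_set_eq]

theorem pc_eq_bot {S : Set ι} (h : ∀ i, i ∉ S) : pc K S = ⊥ :=
  eq_bot_iff.2 fun _ hx => funext fun i => hx i (h i)

/-- on a piece with one generator, injectivity is one matrix entry -/
theorem inj_on_single {φ : (ι → K) →ₗ[K] (κ → K)} {S : Set ι} {i : ι} (hS : ∀ j ∈ S, j = i)
    (h : φ (Pi.single i 1) ≠ 0) : ∀ x ∈ pc K S, φ x = 0 → x = 0 := fun x hx h0 => by
  have e : x = x i • (Pi.single i 1 : ι → K) := funext fun j => by
    by_cases hj : j = i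
    · subst hj
      simp
    · rw [hx j fun hs => hj (hS j hs)]
      simp [hj]
  rw [e, map_smul] at h0
  rw [e, (smul_eq_zero.1 h0).resolve_right h, zero_smul]

end Gen

/-- The linear map with matrix `n`. -/
def mat {ι κ : Type} [Fintype ι] (n : ι → κ → K) : (ι → K) →ₗ[K] (κ → K) where
  toFun x k := ∑ i, x i * n i k
  map_add' x y := funext fun k => by simp [add_mul, Finset.sum_add_distrib]
  map_smul' r x := funext fun k => by simp [Finset.mul_sum, mul_assoc]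

theorem mat_apply {ι κ : Type} [Fintype ι] (n : ι → κ → K) (x : ι → K) (k : κ) :
    mat n x k = ∑ i, x i * n i k := rfl

theorem mat_single {ι κ : Type} [Fintype ι] [DecidableEq ι] (n : ι → κ → K) (i : ι) :
    mat n (Pi.single i 1) = n i := funext fun k => by
  simp [mat_apply, Pi.single_apply]

theorem sp_mat {ι κ : Type} [Fintype ι] [DecidableEq ι] {n : ι → κ → K} {r : ι → κ → Prop}
    (h : ∀ i k, n i k ≠ 0 → r i k) : Sp (mat n) r := fun i k h0 =>
  h i k (by rwa [mat_single] at h0)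

/-- Generators at all levels. -/
structure Gen (L : Type) : Type 1 where
  ι : ℕ → Type
  [ft : ∀ m, Fintype (ι m)]
  [de : ∀ m, DecidableEq (ι m)]
  [fin : Finite L]
  lab : ∀ m, ι m → L × ℚ
  w : L → ℚ
  lat : ∀ m i, ∃ k : ℕ, (lab m i).2 = w (lab m i).1 + k
  bd : ∀ l, ∃ B : ℕ, ∀ᶠ m in atTop, (lab m ⁻¹' {l}).ncard ≤ B

attribute [instance] Gen.ft Gen.de

namespace Gen

variable {L L' : Type} (A : Gen L) {B : Gen L'}

/-- the graded spaces -/
def wg : WG L where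
  H m := A.ι m → K
  fin := A.fin
  g m := gdOf (A.lab m)
  w := A.w
  lat m l h := by
    by_contra hn
    refine h (pc_eq_bot fun i (hi : A.lab m i = l) => hn ?_)
    exact hi ▸ A.lat m i
  dim l := (A.bd l).imp fun _ h => h.mono fun m hm =>
    ⟨inferInstanceAs (FiniteDimensional K (pc K _)), (finrank_pc _).trans_le hm⟩

theorem le_eq (m : ℕ) (a : ℚ) : A.wg.le m a = pc K {i | (A.lab m i).2 ≤ a} := gdOf_up _ _

/-- local identities between linear maps are checked on generators -/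
theorem loc {M : ℕ → Type} [∀ m, AddCommGroup (M m)] [∀ m, Module K (M m)]
    (φ ψ : ∀ m, (A.ι m → K) →ₗ[K] M m)
    (h : ∀ a, ∀ᶠ m in atTop, ∀ i, (A.lab m i).2 ≤ a → φ m (Pi.single i 1) = ψ m (Pi.single i 1)) :
    A.wg.Loc fun m y => φ m y = ψ m y := fun a => (h a).mono fun m hm _ hy =>
  eq_on_pc (S := {i | (A.lab m i).2 ≤ a}) hm (A.le_eq m a ▸ hy)

/-- the complex with differential given by matrices -/
def wc (n : ∀ m, A.ι m → A.ι m → K) (hom : ∀ m i k, n m i k ≠ 0 → A.lab m k = sh (A.lab m i))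
    (dd : ∀ a, ∀ᶠ m in atTop, ∀ i, (A.lab m i).2 ≤ a → ∀ k, ∑ j, n m i j * n m j k = 0) :
    WC L where
  toWG := A.wg
  d m := mat (n m)
  hom m l y hy := (sp_mat (hom m)).mem (S := A.lab m ⁻¹' {l}) (T := A.lab m ⁻¹' {sh l})
    (fun i (hi : A.lab m i = l) k hk => hk.trans (congrArg sh hi)) hy
  dd := A.loc (fun m => mat (n m) ∘ₗ mat (n m)) (fun _ => 0) fun a => (dd a).mono fun m h i hi =>
    funext fun k => by rw [LinearMap.comp_apply, mat_single]; exact h i hi k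

variable {A}

/-- a bounded family of maps given by matrices -/
def wm (n : ∀ m, A.ι m → B.ι m → K)
    (h : ∀ a, ∃ b, ∀ᶠ m in atTop, ∀ i k, (A.lab m i).2 ≤ a → n m i k ≠ 0 → (B.lab m k).2 ≤ b) :
    WM A.wg B.wg where
  φ m := mat (n m)
  bd a := (h a).imp fun b hb => hb.mono fun m hm y hy => by
    rw [B.le_eq]
    exact (sp_mat (n := n m) (r := fun i k => n m i k ≠ 0) fun _ _ h => h).mem
      (S := {i | (A.lab m i).2 ≤ a}) (fun i hi k hk => hm i k hi hk) (A.le_eq m a ▸ hy)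

theorem mat_up {m : ℕ} {n : A.ι m → B.ι m → K} {l : L × ℚ} {T : Set (L' × ℚ)}
    (h : ∀ i k, A.lab m i = l → n i k ≠ 0 → B.lab m k ∈ T) :
    ∀ y ∈ (A.wg.g m).W l, mat n y ∈ (B.wg.g m).up T := fun y hy => by
  show mat n y ∈ (gdOf (B.lab m)).up T
  rw [gdOf_up]
  exact (sp_mat (n := n) (r := fun i k => n i k ≠ 0) fun _ _ h => h).mem
    (S := A.lab m ⁻¹' {l}) (fun i hi k hk => h i k hi hk) hy

theorem mat_W {m : ℕ} {n : A.ι m → B.ι m → K} {l : L × ℚ} {l' : L' × ℚ}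
    (h : ∀ i k, A.lab m i = l → n i k ≠ 0 → B.lab m k = l') :
    ∀ y ∈ (A.wg.g m).W l, mat n y ∈ (B.wg.g m).W l' := fun y hy => by
  have := mat_up (T := {l'}) h y hy
  rwa [Gd.up_single] at this

end Gen

end Crest.Agent.X212.Win22
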